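import Vale.Agent.P097O.Defs

/-!
# P097O: the core without any bound on `Q` (CORE3)
-/

open Filter Topology Set Metric
open Vale.Agent.P097C

namespace Vale.Agent.P097O

/-- TH: the turning down to the level `R * lam` is paid by `o (lam ^ 2)`, for arbitrarily large
`lam` -/
def THB (r : ℝ) (g : ℂ → ℂ) : Prop := ∀ R ε lam₀ : ℝ, 1 ≤ R → 0 < ε → ∃ lam ≥ lam₀, ∃ V : ℂ → ℝ,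
  Bar (St r) V ∧ (∀ t : ℝ, V t ≤ ε * lam ^ 2) ∧ ∀ y ∈ St r, UJ V y 0 ∧
    (Real.exp (-(R * lam)) ≤ dd r y → UJ V y (-(2 * ‖g y‖ ^ 2)))

/-- BAND: the moderate band is thin at arbitrarily small scales `d` -/
def BDB (r : ℝ) (g : ℂ → ℂ) : Prop := ∀ b A ε d₀ : ℝ, 1 ≤ A → 0 < ε → 0 < d₀ → ∃ d : ℝ, 0 < d ∧
  d ≤ d₀ ∧ ∃ V : ℂ → ℝ, Bar (St r) V ∧ (∀ t : ℝ, V t ≤ ε) ∧ ∀ y ∈ St r, UJ V y 0 ∧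
    (d / A ≤ dd r y → dd r y ≤ 2 * d → Real.exp (-b) ≤ ‖g y‖ → ‖g y‖ ≤ Real.exp b →
      UJ V y (-(1 / d ^ 2)))

/-- the same with the area -/
def BDA (r : ℝ) (g : ℂ → ℂ) : Prop := ∀ b A ε d₀ : ℝ, 1 ≤ A → 0 < ε → 0 < d₀ → ∃ d : ℝ, 0 < d ∧
  d ≤ d₀ ∧ MeasureTheory.volume {y : ℂ | 0 ≤ y.re ∧ y.re ≤ 1 ∧ d / A ≤ dd r y ∧ dd r y ≤ 2 * d ∧
    Real.exp (-b) ≤ ‖g y‖ ∧ ‖g y‖ ≤ Real.exp b} < ENNReal.ofReal (ε * d)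

/-- row 1711 -/
def S_WR3 : Prop := ∀ (n : ℕ) [NeZero n] (r ρ c C : ℝ) (θ h g Q : ℂ → ℂ) (Y : ℂ → ZMod n → ℂ),
  P097K.SD r θ h g Q c C → Cv r ρ Y → THB r g → ∀ K δ ε lam₀ : ℝ, 1 ≤ K → 0 < δ → 0 < ε →
    ∃ lam ≥ lam₀, ∃ (Λ : Finset ℝ) (W : ℂ → ℝ), Λ.card ≤ n ∧ (∀ L ∈ Λ, lam ≤ L) ∧ Bar (St ρ) W ∧
      W 0 ≤ ε ∧ ∀ x ∈ St ρ, (W x < 1 → ∀ j, |(θ (Y x j)).im| ≤ δ * lam) ∧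
        (DrvAt r g Y K lam Λ x → UJ W x 0)

/-- row 1718: one set `T`, one scale -/
def S_ONE3 : Prop := ∀ (n : ℕ) [NeZero n] (r ρ : ℝ) (g : ℂ → ℂ) (Y : ℂ → ZMod n → ℂ),
  BDB r g → Cv r ρ Y → ∀ ε : ℝ, 0 < ε → ∀ b : ℝ, ∃ N₀ : ℝ, ∀ N ≥ N₀,
    ∀ T : Finset (ZMod n), T ≠ Finset.univ → ∃ a : ℂ → ℝ, Bar (St ρ) a ∧ a 0 ≤ ε ∧ ∀ x ∈ St ρ,
      ((∀ j ∉ T, dd r (Y x j) ≤ Real.exp (-N)) → 1 ≤ a x) ∧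
      (Drv T (fun j => g (Y x j)) (fun j => deriv (fun x => Y x j) x) b → UJ a x 0)

/-- row 1712 -/
def S_WFIN3 : Prop := ∀ (n : ℕ) [NeZero n] (r ρ : ℝ) (g : ℂ → ℂ) (Y : ℂ → ZMod n → ℂ),
  BDB r g → Cv r ρ Y → ∀ ε : ℝ, 0 < ε → ∃ lam₀ : ℝ, ∀ lam ≥ lam₀, ∀ K : ℝ, 1 ≤ K →
    ∃ (Λ : Finset ℝ) (N : ℝ) (W : ℂ → ℝ), Λ.card ≤ n ∧ (∀ L ∈ Λ, lam ≤ L) ∧ lam ≤ N ∧
      Bar (St ρ) W ∧ W 0 ≤ ε ∧ ∀ x ∈ St ρ,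
        ((∃ j, dd r (Y x j) ≤ Real.exp (-N)) → 1 ≤ W x) ∧ (DrvAt r g Y K lam Λ x → UJ W x 0)

/-- row 1713 -/
def S_TAME3 : Prop := ∀ (n : ℕ) [NeZero n] (r ρ c C : ℝ) (θ h g Q : ℂ → ℂ) Y s l τ η,
  P097K.SD r θ h g Q c C → AL n r ρ c θ h g Y s l τ η → PG r g → ∀ (ε : ℝ) (m : ℕ), 0 < ε →
  ∃ K lam₀ : ℝ, 1 ≤ K ∧ ∀ lam ≥ lam₀, ∀ Λ : Finset ℝ, Λ.card ≤ m → (∀ L ∈ Λ, lam ≤ L) →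
    ∃ W, Bar (St ρ) W ∧ W 0 ≤ ε ∧ ∀ x ∈ St ρ,
      (∀ j, |(θ (Y x j)).im| ≤ lam ∧ ‖h (Y x j)‖ ≤ Real.exp lam) → W x < 1 →
        UJ W x 0 ∧ Good r c g s l K lam Λ (Y x)

/-- row 1714 -/
def S_GD3 : Prop := ∀ (n : ℕ) [NeZero n] (r ρ c C : ℝ) (θ h g Q : ℂ → ℂ) Y s l τ η,
  P097K.SD r θ h g Q c C → AL n r ρ c θ h g Y s l τ η → PG r g → ∀ K : ℝ, 1 ≤ K →
  ∃ K' lam₀ : ℝ, 1 ≤ K' ∧ ∀ lam ≥ lam₀, ∀ Λ : Finset ℝ, (∀ L ∈ Λ, lam ≤ L) → ∀ x ∈ St ρ,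
    Good r c g s l K lam Λ (Y x) → DrvAt r g Y K' lam Λ x

/-- row 1715 -/
def S_ACORE3 : Prop := ∀ (n : ℕ) [NeZero n] (r ρ c C : ℝ) (θ h g Q : ℂ → ℂ) Y s l τ η,
  P097K.SD r θ h g Q c C → AL n r ρ c θ h g Y s l τ η → AX n ρ θ h g Y → PG r g → THB r g →
  BDB r g → False

/-- row 1716: from the area to the barrier -/
def S_BDA : Prop := ∀ (r : ℝ) (g : ℂ → ℂ), 0 < r → ContinuousOn g (St r) →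
  (∀ y ∈ St r, g (y + 1) = g y) → BDA r g → BDB r g

/-- row 1717: THE CORE -/
def S_CORE3 : Prop := ∀ (r c T : ℝ) (θ H Q Y φ p : ℂ → ℂ) (n : ℕ),
  P097Top.Cur r c θ H Q → PG r (deriv θ) → THB r (deriv θ) → BDA r (deriv θ) →
  P097Top.LeafD r c θ H n T Y φ p → P097Top.NoReg r n T Y → False

end Vale.Agent.P097O
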