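import Vale.Agent.P097O.Defs
import Vale.Agent.P097K.Alg
import Vale.Agent.P097K.Alg2

/-!
# P097O, row 1701: the abstract leaf with the bound of the tangential offsets
-/

set_option linter.all false

open Filter Topology Set Metric Complex

open Vale.Agent.P097C hiding SD

namespace Vale.Agent.P097O

namespace Alg3

open Vale.Agent.P097K Vale.Agent.P097K.Alg

theorem algY {r ρ c C : ℝ} {θ h g Q Y φ p : ℂ → ℂ} {n : ℕ} [NeZero n]
    (S : P097K.SD r θ h g Q c C) (L : CL r ρ c θ h g n Y φ p) :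
    ∃ s l τ η, AL n r ρ c θ h g (fun x i => Y (x + i.val / n)) s l τ η := by
  have X := P097K.alg1 r ρ c C θ h g Q Y φ p n S L
  obtain ⟨F, G, aFG, eFG, pFG, B, hB⟩ := P097K.alg2 r ρ c C θ h g Q Y φ p n S L
  have i1 := im_inv n
  have ij : ∀ j : ZMod n, ((j.val : ℂ) / n).im = 0 := fun j => im_div _ n
  have pde : Per ρ (de n φ) := fun x hx => by
    rw [de, de, show x + 1 - 1 / n = x - 1 / n + 1 by ring, L.perφ x hx,
      L.perφ _ (sub_mem hx i1)]
    ring
  have ps : Per ρ (sA n φ) := fun x hx => by rw [sA, sA, pde x hx]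
  have pp : Per ρ p := L.perp
  have ph : Per ρ fun x => h (Y x) := fun x hx => by
    show h (Y (x + 1)) = h (Y x)
    rw [L.perY x hx, S.perh _ (L.maps hx)]
  have pAp : Per ρ (Ap h n Y φ p) := fun x hx => by
    have : h (Y (x + 1)) = h (Y x) := ph x hx
    rw [Ap, Ap, pde x hx, ps x hx, pp x hx, show x + 1 - 1 / n = x - 1 / n + 1 by ring,
      pp _ (sub_mem hx i1), this]
  have pAm : Per ρ (Am h n Y φ p) := fun x hx => by
    have : h (Y (x + 1)) = h (Y x) := ph x hx
    rw [Am, Am, pde x hx, ps x hx, pp x hx, show x + 1 - 1 / n = x - 1 / n + 1 by ring,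
      pp _ (sub_mem hx i1), this]
  have pφ' : Per ρ (deriv φ) := per_deriv L.perφ
  have pp' : Per ρ (deriv p) := per_deriv (k := 0) fun x hx => by rw [add_zero, pp x hx]
  have pe : Per ρ (eA h n Y φ p) := fun x hx => by
    rw [eA, eA, ps x hx, pp' x hx, pAp x hx, pφ' x hx]
  have ade : AnalyticOnNhd ℂ (de n φ) (St ρ) := fun x hx =>
    ((L.anφ x hx).sub (an_sub L.anφ i1 x hx)).div_const
  have as : AnalyticOnNhd ℂ (sA n φ) (St ρ) := fun x hx => analyticAt_sin.comp (ade x hx)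
  have ah : AnalyticOnNhd ℂ (fun x => h (Y x)) (St ρ) := fun x hx =>
    (S.anh _ (L.maps hx)).comp (L.anY x hx)
  have aA : AnalyticOnNhd ℂ (fun x => cos (de n φ x) * (p x - p (x - 1 / n)) / 2) (St ρ) :=
    fun x hx => ((analyticAt_cos.comp (ade x hx)).mul
      ((L.anp x hx).sub (an_sub L.anp i1 x hx))).div_const
  have aAp : AnalyticOnNhd ℂ (Ap h n Y φ p) (St ρ) := fun x hx =>
    (aA x hx).sub ((ah x hx).mul ((as x hx).pow 2))
  have aAm : AnalyticOnNhd ℂ (Am h n Y φ p) (St ρ) := fun x hx =>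
    (aA x hx).add ((ah x hx).mul ((as x hx).pow 2))
  have ae : AnalyticOnNhd ℂ (eA h n Y φ p) (St ρ) := fun x hx =>
    ((as x hx).mul (L.anp x hx).deriv).sub ((aAp x hx).mul (L.anφ x hx).deriv)
  have al : AnalyticOnNhd ℂ (lA h n Y φ p) (St ρ) := fun x hx =>
    ((as x hx).mul (an_add aAm i1 x hx)).sub ((an_add as i1 x hx).mul (aAp x hx))
  have vd : ∀ j, ∀ x ∈ St ρ, dC F θ j (fun i => Y (x + i.val / n)) = de n φ (x + j.val / n) :=
    fun j x hx => by
      have := L.th _ (add_mem hx (ij j))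
      rw [dC, (eFG j x hx).1, de]
      linear_combination this / 2
  have vA : ∀ e j, ∀ x ∈ St ρ, AC F G θ h e j (fun i => Y (x + i.val / n)) =
      cos (de n φ (x + j.val / n)) * (p (x + j.val / n) - p (x + j.val / n - 1 / n)) / 2 +
        e * (h (Y (x + j.val / n)) * sA n φ (x + j.val / n) ^ 2) := fun e j x hx => by
    rw [AC, vd j x hx, (eFG j x hx).2, (eFG (j - 1) x hx).2, pp.pred j hx, sA]
  have vs : ∀ j, ∀ x ∈ St ρ, sin (dC F θ j (fun i => Y (x + i.val / n))) =
      sA n φ (x + j.val / n) := fun j x hx => by rw [vd j x hx, sA]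
  have vl : ∀ j, ∀ x ∈ St ρ, lC F G θ h j (fun i => Y (x + i.val / n)) =
      lA h n Y φ p (x + j.val / n) := fun j x hx => by
    rw [lC, vs j x hx, vs (j + 1) x hx, vA 1 (j + 1) x hx, vA (-1) j x hx, lA, ← pAm.succ j hx,
      ← ps.succ j hx, Am, Ap]
    ring
  have apr : ∀ (j : ZMod n) (y : ZMod n → ℂ), AnalyticAt ℂ (fun y : ZMod n → ℂ => y j) y :=
    fun j y => (ContinuousLinearMap.proj (R := ℂ) (φ := fun _ : ZMod n => ℂ) j).analyticAt y
  have ad : ∀ j, AnalyticOnNhd ℂ (dC F θ j) (Cf n r) := fun j y hy =>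
    ((aFG j).1 y hy).sub ((S.anθ _ (hy j)).comp_of_eq (apr j y) rfl)
  have aAC : ∀ e j, AnalyticOnNhd ℂ (AC F G θ h e j) (Cf n r) := fun e j y hy =>
    ((analyticAt_cos.comp (ad j y hy)).mul
      (((aFG j).2 y hy).sub ((aFG (j - 1)).2 y hy))).div_const.add
      (analyticAt_const.mul (((S.anh _ (hy j)).comp_of_eq (apr j y) rfl).mul
        ((analyticAt_sin.comp (ad j y hy)).pow 2)))
  have pd : ∀ j, ∀ y ∈ Cf n r, ∀ m : ZMod n → ℤ,
      sin (dC F θ j fun i => y i + m i) = sin (dC F θ j y) ∧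
      cos (dC F θ j fun i => y i + m i) = cos (dC F θ j y) := fun j y hy m => by
    obtain ⟨⟨k, k1, k', k2, -⟩, -⟩ := pFG j y hy m
    have e : (dC F θ j fun i => y i + m i) = dC F θ j y + ((k - k' : ℤ) : ℂ) * (2 * Real.pi) := by
      rw [dC, dC, k1, k2]
      push_cast
      ring
    rw [e]
    exact ⟨sin_add_int_mul_two_pi _ _, cos_add_int_mul_two_pi _ _⟩
  have pA : ∀ e j, ∀ y ∈ Cf n r, ∀ m : ZMod n → ℤ,
      (AC F G θ h e j fun i => y i + m i) = AC F G θ h e j y := fun e j y hy m => by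
    obtain ⟨⟨k, -, k', -, k3⟩, k4⟩ := pFG j y hy m
    rw [AC, AC, (pd j y hy m).1, (pd j y hy m).2, k4, (pFG (j - 1) y hy m).2, k3]
  have c1 : ∀ t : ℝ, (t : ℂ) + 1 / n = ((t + 1 / n : ℝ) : ℂ) := fun t => by push_cast; rfl
  have cj : ∀ (t : ℝ) (j : ℕ), (t : ℂ) + j / n = ((t + j / n : ℝ) : ℂ) := fun t j => by
    push_cast; rfl
  have rg : ∀ t : ℝ, PR (g (Y t)) := fun t => by
    rw [show Y t = ((Y t).re : ℂ) from Complex.ext (by simp) (by rw [L.reY, ofReal_im])]
    exact S.posg _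
  have rs : ∀ t : ℝ, PR (sA n φ t) := L.poss
  have rc : PR c := ⟨ofReal_im c, by rw [ofReal_re]; exact S.c0⟩
  have re : ∀ t : ℝ, PR (eA h n Y φ p t) := fun t =>
    pr_of_mul (pr_mul (rg t) (rg t)) (pr_mul (pr_mul rc (pr_mul (rs t) (rs t))) (L.posY t)) (by
      linear_combination X.eqη t (real_mem L.ρ0 t))
  have rl : ∀ t : ℝ, PR (lA h n Y φ p t) := fun t =>
    pr_of_mul (L.posφ t) (pr_add (pr_mul (rs (t + 1 / n)) (re t)) (pr_mul (rs t) (re (t + 1 / n))))
      (by rw [← c1]; exact X.eqE t (real_mem L.ρ0 t))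
  have esg : ∀ t : ℝ, (sg c g n Y φ t)⁻¹ = sA n φ t / eA h n Y φ p t := fun t => by
    have k := X.eqη t (real_mem L.ρ0 t)
    have k1 := pr_ne (rg t)
    have k2 := pr_ne (rs t)
    have k3 := pr_ne (re t)
    have k4 : sg c g n Y φ t = eA h n Y φ p t / sA n φ t := by
      rw [sg, div_eq_div_iff (pow_ne_zero 2 k1) k2, ← sA]
      linear_combination -k
    rw [k4, inv_div]
  refine ⟨fun j y => sin (dC F θ j y), lC F G θ h,
    fun j x => deriv φ (x + j.val / n), fun j x => eA h n Y φ p (x + j.val / n),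
    L.odd, L.ρ0, fun j => an_add L.anY (ij j), fun x hx j => L.maps (add_mem hx (ij j)),
    fun j y hy => analyticAt_sin.comp (ad j y hy),
    fun j y hy => ((analyticAt_sin.comp (ad j y hy)).mul (aAC 1 (j + 1) y hy)).sub
      ((analyticAt_sin.comp (ad (j + 1) y hy)).mul (aAC (-1) j y hy)),
    fun j => an_add L.anφ.deriv (ij j), fun j => an_add ae (ij j),
    fun j y hy m => (pd j y hy m).1, fun j y hy m => ?_, fun j x hx => ?_, fun j x hx => ?_,
    fun j x hx => ?_, ⟨6 * (|B| + 1), fun lam hl y hy hb j => ?_⟩, fun j => ?_, fun j => ?_, ?_,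
    fun x₀ σ Z k1 k2 k3 k4 k5 => ?_⟩
  · rw [lC, lC, (pd j y hy m).1, (pd (j + 1) y hy m).1, pA 1 _ y hy m, pA (-1) _ y hy m]
  · rw [vl j x hx, vs j x hx, vs (j + 1) x hx, ps.succ j hx, pe.succ j hx]
    exact X.eqE _ (add_mem hx (ij j))
  · rw [pφ'.pred j hx, deriv_comp_add_const]
    exact X.eqθ _ (add_mem hx (ij j))
  · rw [vs j x hx, deriv_comp_add_const]
    exact X.eqη _ (add_mem hx (ij j))
  · have l0 : 0 ≤ lam := by linarith
    have b1 : B * lam ≤ |B| * lam := mul_le_mul_of_nonneg_right (le_abs_self B) l0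
    have b2 : 0 ≤ |B| * lam := mul_nonneg (abs_nonneg B) l0
    have hE : 2 ≤ Real.exp ((|B| + 1) * lam) := by
      have := Real.add_one_le_exp ((|B| + 1) * lam)
      linarith
    have e6 : Real.exp (6 * (|B| + 1) * lam) = Real.exp ((|B| + 1) * lam) ^ 6 := by
      rw [← Real.exp_nat_mul]
      congr 1
      push_cast
      ring
    have bd : ∀ i, Real.exp |(dC F θ i y).im| ≤ Real.exp ((|B| + 1) * lam) := fun i => by
      rw [Real.exp_le_exp, dC, sub_im]
      have := abs_sub (F i y).im (θ (y i)).im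
      have := (hB lam hl y hy hb i).1
      have := (hb i).1
      linarith
    have bG : ∀ i, ‖G i y‖ ≤ Real.exp ((|B| + 1) * lam) := fun i =>
      (hB lam hl y hy hb i).2.trans (Real.exp_le_exp.2 (by linarith))
    have bh : ∀ i, ‖h (y i)‖ ≤ Real.exp ((|B| + 1) * lam) := fun i =>
      (hb i).2.trans (Real.exp_le_exp.2 (by linarith))
    have bs : ∀ i, ‖sin (dC F θ i y)‖ ≤ Real.exp ((|B| + 1) * lam) := fun i =>
      (norm_sin_le _).trans (bd i)
    have bA : ∀ e : ℂ, ‖e‖ = 1 → ∀ i, ‖AC F G θ h e i y‖ ≤ 2 * Real.exp ((|B| + 1) * lam) ^ 3 :=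
      fun e he i => bd_A (by linarith) ((norm_cos_le _).trans (bd i)) (bG i) (bG _) (bh i) (bs i) he
    rw [e6]
    generalize Real.exp ((|B| + 1) * lam) = E at hE bs bA
    have E0 : 0 ≤ E := by linarith
    refine ⟨(bs j).trans (le_self_pow₀ (by linarith) (by norm_num)), ?_⟩
    have m1 : ‖sin (dC F θ j y) * AC F G θ h 1 (j + 1) y‖ ≤ E * (2 * E ^ 3) := by
      rw [norm_mul]
      exact mul_le_mul (bs j) (bA 1 norm_one _) (norm_nonneg _) E0
    have m2 : ‖sin (dC F θ (j + 1) y) * AC F G θ h (-1) j y‖ ≤ E * (2 * E ^ 3) := by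
      rw [norm_mul]
      exact mul_le_mul (bs _) (bA (-1) (by simp) _) (norm_nonneg _) E0
    have m3 : E ^ 4 * 2 ^ 2 ≤ E ^ 4 * E ^ 2 :=
      mul_le_mul_of_nonneg_left (pow_le_pow_left₀ (by norm_num) hE 2) (by positivity)
    refine (norm_sub_le _ _).trans ?_
    linarith
  · show (Y (0 + j.val / n)).im = 0
    rw [← ofReal_zero, cj]
    exact L.reY _
  · have z0 : (0 : ℂ) ∈ St ρ := real_mem L.ρ0 0
    show PR (sin (dC F θ j fun i => Y (0 + i.val / n))) ∧
      PR (lC F G θ h j fun i => Y (0 + i.val / n)) ∧ PR (eA h n Y φ p (0 + j.val / n))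
    rw [vs j 0 z0, vl j 0 z0, ← ofReal_zero, cj]
    exact ⟨rs _, rl _, re _⟩
  · obtain ⟨C₀, C0, hC⟩ := L.wr
    refine ⟨C₀, C0, fun x hx hne => ?_⟩
    have aη : ∀ j : ZMod n, AnalyticOnNhd ℂ (fun x => eA h n Y φ p (x + j.val / n)) (St ρ) :=
      fun j => an_add ae (ij j)
    have key := ident L.ρ0
      (F := fun x => ∑ j : ZMod n, lA h n Y φ p (x + j.val / n) *
        ((∏ i ∈ Finset.univ.erase j, eA h n Y φ p (x + i.val / n)) *
          ∏ i ∈ Finset.univ.erase (j + 1), eA h n Y φ p (x + i.val / n)))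
      (G := fun x => C₀ * (∏ i : ZMod n, eA h n Y φ p (x + i.val / n)) ^ 2)
      (fun x hx => Finset.analyticAt_fun_sum _ fun j _ => (an_add al (ij j) x hx).mul
        ((Finset.analyticAt_fun_prod _ fun i _ => aη i x hx).mul
          (Finset.analyticAt_fun_prod _ fun i _ => aη i x hx)))
      (fun x hx => analyticAt_const.mul ((Finset.analyticAt_fun_prod _ fun i _ => aη i x hx).pow 2))
      (fun t => by
        have n1 : ∀ j : ZMod n, eA h n Y φ p (t + j.val / n) ≠ 0 := fun j => by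
          rw [cj]
          exact pr_ne (re _)
        rw [pole_free (fun j => lA h n Y φ p (t + j.val / n)) _ n1, ← hC t, ← sum_val]
        congr 1
        refine Finset.sum_congr rfl fun j _ => ?_
        have m := X.eqE _ (real_mem L.ρ0 (t + j.val / n))
        rw [pe.succ j (real_mem L.ρ0 t), add_div (j.val : ℂ), ← add_assoc, cj, c1, esg, esg]
        rw [c1] at m
        have m1 := pr_ne (re (t + j.val / n))
        have m2 := pr_ne (re (t + j.val / n + 1 / n))
        have m3 := pr_ne (L.posφ (t + j.val / n))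
        field_simp
        linear_combination m) x hx
    rw [pole_free (fun j => lA h n Y φ p (x + j.val / n)) _ hne] at key
    have k2 := mul_right_cancel₀ (pow_ne_zero 2 (Finset.prod_ne_zero_iff.2 fun i _ => hne i)) key
    rw [← k2]
    exact Finset.sum_congr rfl fun j _ => by rw [vl j x hx]
  · refine L.noreg x₀ σ (fun j x => Z x j) k1 k2 fun j hj =>
      ⟨(k3 j).differentiableOn, fun x hx => k5 hx j, fun x hx => ?_⟩
    show Z x j = Y (x + j / n)
    rw [k4 hx]
    show Y (x + ((j : ZMod n).val : ℂ) / n) = _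
    rw [ZMod.val_cast_of_lt hj]

theorem ax {r ρ c C : ℝ} {θ h g Q Y φ p : ℂ → ℂ} {n : ℕ} [NeZero n]
    (S : P097K.SD r θ h g Q c C) (L : CL r ρ c θ h g n Y φ p) :
    AX n ρ θ h g (fun x i => Y (x + i.val / n)) := by
  have i1 := im_inv n
  have ij : ∀ j : ZMod n, ((j.val : ℂ) / n).im = 0 := fun j => im_div _ n
  have ade : AnalyticOnNhd ℂ (de n φ) (St ρ) := fun x hx =>
    ((L.anφ x hx).sub (an_sub L.anφ i1 x hx)).div_const
  have as : AnalyticOnNhd ℂ (sA n φ) (St ρ) := fun x hx => analyticAt_sin.comp (ade x hx)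
  have pp : Per ρ p := L.perp
  refine ⟨fun j x => sA n φ (x + j.val / n), 2 * n + 1, fun j => ⟨an_add as (ij j), ?_⟩,
    fun lam l1 x hx hb j => ?_⟩
  · have e : (0 : ℂ) + j.val / n = ((j.val / n : ℝ) : ℂ) := by push_cast; ring
    show sA n φ (0 + j.val / n) ≠ 0
    rw [e]
    exact pr_ne (L.poss _)
  have n0 : (0 : ℝ) ≤ n := Nat.cast_nonneg n
  have bF : ∀ i : ZMod n, |(Alg2.LnF θ n i (fun i => Y (x + i.val / n)) -
      θ (Y (x + i.val / n))).im| ≤ (n + 1) * lam := fun i => by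
    rw [Complex.sub_im]
    have a1 := Alg2.F_im (θ := θ) i (y := fun i => Y (x + i.val / n)) hb
    have a2 := hb i
    exact (abs_sub _ _).trans (by linarith)
  have bs : ‖sA n φ (x + j.val / n)‖ ≤ Real.exp ((2 * n + 1) * lam) := by
    have a1 := bF j
    have a2 := L.th _ (add_mem hx (ij j))
    have a3 : Alg2.LnF θ n j (fun i => Y (x + i.val / n)) - θ (Y (x + j.val / n)) =
        de n φ (x + j.val / n) := by
      rw [Alg2.F_eq S L j hx, de]
      linear_combination a2 / 2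
    rw [a3] at a1
    refine (norm_sin_le _).trans (Real.exp_le_exp.2 (a1.trans ?_))
    nlinarith
  have s0 : 0 ≤ ∑ i : ZMod n, ‖h (Y (x + i.val / n))‖ := Finset.sum_nonneg fun i _ => norm_nonneg _
  have bp : ∀ i : ZMod n, ‖p (x + i.val / n)‖ ≤
      Real.exp ((2 * n + 1) * lam) * ∑ i : ZMod n, ‖h (Y (x + i.val / n))‖ := fun i => by
    rw [← Alg2.G_eq S L i hx, Alg2.LnG]
    refine (norm_sum_le _ _).trans ((Finset.sum_le_card_nsmul _ _
      ((∑ i : ZMod n, ‖h (Y (x + i.val / n))‖) * Real.exp ((n + 1) * lam)) fun k _ => ?_).trans ?_)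
    · rw [norm_mul, norm_mul, norm_pow, norm_neg, norm_one, one_pow, one_mul]
      refine mul_le_mul ?_ ((norm_cos_le _).trans (Real.exp_le_exp.2 (bF _))) (norm_nonneg _) s0
      exact Finset.single_le_sum (f := fun i : ZMod n => ‖h (Y (x + i.val / n))‖)
        (fun i _ => norm_nonneg _) (Finset.mem_univ _)
    · rw [Finset.card_range, nsmul_eq_mul]
      have a1 : (n : ℝ) ≤ Real.exp (n * lam) := by
        have := Real.add_one_le_exp (n * lam)
        nlinarith
      have a2 : Real.exp ((2 * n + 1) * lam) = Real.exp (n * lam) * Real.exp ((n + 1) * lam) := by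
        rw [← Real.exp_add]
        congr 1
        ring
      rw [a2, mul_comm (∑ i : ZMod n, ‖h (Y (x + i.val / n))‖), mul_assoc]
      exact mul_le_mul_of_nonneg_right a1 (mul_nonneg (Real.exp_pos _).le s0)
  refine ⟨bs, ?_⟩
  have k := L.ps _ (add_mem hx (ij j))
  rw [← pp.pred j hx] at k
  have k2 := congrArg norm k
  rw [norm_mul, norm_mul, norm_mul, Complex.norm_ofNat] at k2
  have k3 := (norm_sub_le _ _).trans (add_le_add (bp j) (bp (j - 1)))
  have k4 := mul_le_mul_of_nonneg_right k3 (norm_nonneg (g (Y (x + j.val / n))))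
  show ‖Complex.sin (de n φ (x + j.val / n))‖ * ‖deriv h (Y (x + j.val / n))‖ ≤
    Real.exp ((2 * n + 1) * lam) *
      (‖g (Y (x + j.val / n))‖ * ∑ i : ZMod n, ‖h (Y (x + i.val / n))‖)
  linarith

end Alg3

theorem alg3 : S_ALG3 := by
  intro r ρ c C θ h g Q Y φ p n _ S L
  obtain ⟨s, l, τ, η, A⟩ := Alg3.algY S L
  exact ⟨_, s, l, τ, η, A, Alg3.ax S L⟩

end Vale.Agent.P097O
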