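import Vale.Agent.P097O.Spec3
import Vale.Agent.P097G3.Area

/-!
# P097O: from the area of the band to the barrier (row 1716)
-/

set_option linter.all false

open Filter Topology Set Metric
open Vale.Agent.P097C

namespace Vale.Agent.P097O

lemma per_int {r : ℝ} {g : ℂ → ℂ} (h : ∀ y ∈ St r, g (y + 1) = g y) {y : ℂ} (hy : y ∈ St r)
    (j : ℤ) : g (y - j) = g y := by
  induction j using Int.induction_on with
  | zero => simp
  | succ i ih =>
    have := h (y - ((i : ℤ) + 1 : ℤ)) (St_sub hy (by simp))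
    rw [← this, ← ih]
    congr 1
    push_cast
    ring
  | pred i ih =>
    have := h (y - (-(i : ℤ) : ℤ)) (St_sub hy (by simp))
    rw [← ih, ← this]
    congr 1
    push_cast
    ring

theorem bda : S_BDA := by
  intro r g hr hg hp H b A ε d₀ A1 ε0 d0
  obtain ⟨C, C0, hC⟩ := P097G3.area_pot hr
  obtain ⟨d, d1, d2, hv⟩ := H b A (ε * r / (2 * C)) (min d₀ (r ^ 2 / 4)) A1 (by positivity)
    (lt_min d0 (by positivity))
  have dA : 0 < d / A := by positivity
  set K := {y : ℂ | 0 ≤ y.re ∧ y.re ≤ 1 ∧ d / A ≤ dd r y ∧ dd r y ≤ 2 * d ∧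
    Real.exp (-b) ≤ ‖g y‖ ∧ ‖g y‖ ≤ Real.exp b} with hK
  set K₀ := {y : ℂ | 0 ≤ y.re ∧ y.re ≤ 1 ∧ d / A ≤ dd r y ∧ dd r y ≤ 2 * d} with hK₀
  have s0 : K₀ ⊆ St r := fun y hy => by
    have h1 : 0 < r ^ 2 - y.im ^ 2 := dA.trans_le hy.2.2.1
    exact abs_lt.2 (abs_lt_of_sq_lt_sq' (by linarith) hr.le)
  have c0 : IsClosed K₀ := (isClosed_le continuous_const Complex.continuous_re).inter
    ((isClosed_le Complex.continuous_re continuous_const).inter
      ((isClosed_le continuous_const (dd_cont r)).inter (isClosed_le (dd_cont r) continuous_const)))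
  have b0 : K₀ ⊆ closedBall 0 (1 + r) := fun y hy => by
    rw [mem_closedBall_zero_iff]
    have h1 : |y.re| ≤ 1 := abs_le.2 ⟨by linarith [hy.1], hy.2.1⟩
    have h2 : |y.im| < r := s0 hy
    linarith [Complex.norm_le_abs_re_add_abs_im y]
  have e : K = K₀ ∩ (fun y => ‖g y‖) ⁻¹' Icc (Real.exp (-b)) (Real.exp b) := by
    ext y
    simp only [hK, hK₀, mem_setOf_eq, mem_inter_iff, mem_preimage, mem_Icc, and_assoc]
  have cK : IsCompact K := (isCompact_closedBall 0 (1 + r)).of_isClosed_subset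
    (e ▸ (hg.mono s0).norm.preimage_isClosed_of_isClosed c0 isClosed_Icc)
    (e ▸ inter_subset_left.trans b0)
  have sK : K ⊆ St r := e ▸ inter_subset_left.trans s0
  obtain ⟨V, v1, v2, v3⟩ := hC K (2 * d / r) _ cK sK (by
    rw [div_le_iff₀ hr]; nlinarith [d2.trans (min_le_right _ _)]) (fun y hy => by
      have h1 : r ^ 2 - y.im ^ 2 ≤ 2 * d := hy.2.2.2.1
      have h2 : |y.im| < r := sK hy
      rw [le_div_iff₀ hr]
      nlinarith [sq_abs y.im, abs_nonneg y.im]) hv (by positivity)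
  have q0 : 0 ≤ 1 / d ^ 2 := by positivity
  refine ⟨d, d1, d2.trans (min_le_left _ _), fun y => 1 / d ^ 2 * V y, v1.smul q0, fun t => ?_,
    fun y hy => ⟨by simpa using (v3 y hy).1.smul q0, fun h1 h2 h3 h4 => ?_⟩⟩
  · refine (mul_le_mul_of_nonneg_left (v2 t) q0).trans_eq ?_
    field_simp
  · have e1 : dd r (y - (⌊y.re⌋ : ℤ)) = dd r y := by simp [dd]
    have e2 := per_int hp hy ⌊y.re⌋
    have e3 : (y - (⌊y.re⌋ : ℤ)).re = Int.fract y.re := by simp
    have := ((v3 y hy).2 ⟨⌊y.re⌋, by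
      simp only [hK, mem_setOf_eq, e1, e2, e3]
      exact ⟨Int.fract_nonneg _, (Int.fract_lt_one _).le, h1, h2, h3, h4⟩⟩).smul q0
    simpa using this

end Vale.Agent.P097O
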