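import Vale.Agent.P097O.Defs
import Vale.Agent.P097C.Wr

/-!
# P097O: the payer of the driven phase (row 1703)
-/

set_option linter.all false

open Filter Topology Set Metric
open Vale.Agent.P097C

namespace Vale.Agent.P097O

open WrA in
theorem dpay : S_DPAY := by
  intro n _ r ρ g Y cv K lam K1 l1
  have r0 := cv.r0
  have n0 : (0 : ℝ) < n := by exact_mod_cast NeZero.pos n
  set L : ℕ → ℝ := fun s => lam * (8 * K) ^ s with hL
  have K4 : 1 ≤ 8 * K := by linarith
  have Ll : ∀ s, lam ≤ L s := fun s => le_mul_of_one_le_right (by linarith) (one_le_pow₀ K4)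
  set e : ℕ → ℝ := fun s => Real.exp (-L s) with he
  have e0 : ∀ s, 0 < e s := fun s => Real.exp_pos _
  have ea : Antitone e := fun s t hst => Real.exp_le_exp.2 (neg_le_neg
    (mul_le_mul_of_nonneg_left (pow_le_pow_right₀ K4 hst) (by linarith)))
  set B : ℕ → ℝ := fun s => 4 * n * Real.exp (K * (lam + L s)) ^ 2 / r ^ 2 * e (s + 1) ^ 2 with hB
  have B0 : ∀ s, 0 ≤ B s := fun s => by positivity
  have ck1 := fun x (hx : x ∈ St ρ) j s =>
    ck_pull (F := fun x => Y x j) (cv.anY j x hx) (cv.maps hx j) (e0 s)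
  have key : ∀ x ∈ St ρ, UJ (fun x => ∑ s ∈ Finset.range n, ∑ j, B s * ck r (e (s + 1)) (Y x j)) x
      (-∑ s ∈ Finset.range n, ∑ j, B s * (2 * r ^ 2 / (dd r (Y x j) + e (s + 1)) ^ 2 *
        ‖deriv (fun x => Y x j) x‖ ^ 2)) := fun x hx => by
    refine (UJ.sum (Finset.range n) fun s _ => UJ.sum Finset.univ fun j _ =>
      (ck1 x hx j (s + 1)).2.smul (B0 s)).mono (le_of_eq ?_)
    simp only [mul_neg, Finset.sum_neg_distrib]
  refine ⟨(Finset.range n).image L,
    fun x => ∑ s ∈ Finset.range n, ∑ j, B s * ck r (e (s + 1)) (Y x j),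
    Finset.card_image_le.trans_eq (Finset.card_range n), fun L' hL' => ?_, ⟨fun x hx => ?_,
    fun x hx => Finset.sum_nonneg fun s _ => Finset.sum_nonneg fun j _ =>
      mul_nonneg (B0 s) (ck_nn (cv.maps hx j) (e0 _))⟩, ?_, fun x hx => ⟨?_, fun hc hD => ?_⟩⟩
  · obtain ⟨s, -, rfl⟩ := Finset.mem_image.1 hL'
    exact Ll s
  · exact ContinuousAt.continuousWithinAt (tendsto_finset_sum _ fun s _ =>
      tendsto_finset_sum _ fun j _ => (ck1 x hx j (s + 1)).1.const_mul (B s))
  · have h0 : ∀ s ∈ Finset.range n, ∑ j, B s * ck r (e (s + 1)) (Y 0 j) ≤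
        n * (4 * n * Real.exp (-(4 * lam))) := by
      intro s _
      have : ∀ j ∈ (Finset.univ : Finset (ZMod n)),
          B s * ck r (e (s + 1)) (Y 0 j) ≤ 4 * n * Real.exp (-(4 * lam)) := fun j _ => by
        refine (mul_le_mul_of_nonneg_left (ck_real (r := r) (cv.re0 j) (e0 _)).1 (B0 s)).trans ?_
        have h1 : Real.exp (K * (lam + L s)) ^ 2 * e (s + 1) ≤ Real.exp (-(4 * lam)) := by
          rw [he, ← Real.exp_nat_mul, ← Real.exp_add, Real.exp_le_exp]
          have h2 : L (s + 1) = 8 * K * L s := by simp only [hL]; ring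
          have h3 := mul_le_mul_of_nonneg_left (Ll s) (show 0 ≤ K by linarith)
          have h4 : lam ≤ K * lam := le_mul_of_one_le_left (by linarith) K1
          rw [h2]
          push_cast
          linarith
        have h2 : B s * (r ^ 2 / e (s + 1)) =
            4 * n * (Real.exp (K * (lam + L s)) ^ 2 * e (s + 1)) := by
          have := (e0 (s + 1)).ne'
          simp only [hB]
          field_simp
        rw [h2]
        exact mul_le_mul_of_nonneg_left h1 (by positivity)
      have := Finset.sum_le_card_nsmul _ _ _ this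
      rwa [Finset.card_univ, ZMod.card, nsmul_eq_mul] at this
    have := Finset.sum_le_card_nsmul _ _ _ h0
    rw [Finset.card_range, nsmul_eq_mul] at this
    exact this.trans_eq (by ring)
  · refine (key x hx).mono (neg_nonpos.2 (Finset.sum_nonneg fun s _ =>
      Finset.sum_nonneg fun j _ => mul_nonneg (B0 s) (by positivity)))
  · refine (key x hx).mono (neg_le_neg ?_)
    set v : ZMod n → ℂ := fun j => deriv (fun x => Y x j) x with hv
    set P : ℕ → ZMod n → ℝ := fun s j => 2 * r ^ 2 / (dd r (Y x j) + e s) ^ 2 * ‖v j‖ ^ 2 with hP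
    have P0 : ∀ s j, 0 ≤ P s j := fun s j => by positivity
    show ∑ i, 2 * ‖g (Y x i) * v i‖ ^ 2 ≤ ∑ s ∈ Finset.range n, ∑ j, B s * P (s + 1) j
    have s2 : ∀ s, 0 ≤ ∑ j, B s * P (s + 1) j := fun s =>
      Finset.sum_nonneg fun j _ => mul_nonneg (B0 s) (P0 _ _)
    obtain ⟨i, hi⟩ := hc
    obtain ⟨s, hs, hf⟩ := free (fun j => dd r (Y x j)) ea hi
    obtain ⟨k, hk, h1, -⟩ := hD (L s) (Finset.mem_image_of_mem L (Finset.mem_range.2 hs))
      (Finset.univ.filter fun j => e s ≤ dd r (Y x j)) (fun h => by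
        have := (Finset.mem_filter.1 (Finset.eq_univ_iff_forall.1 h i)).2
        have hi' : dd r (Y x i) < e n := hi
        linarith [ea hs.le])
      fun j hj => (Finset.mem_filter.1 hj).2
    have hk' : dd r (Y x k) < e (s + 1) :=
      hf k (not_le.1 fun h => hk (Finset.mem_filter.2 ⟨Finset.mem_univ _, h⟩))
    have h2 : ∑ i, 2 * ‖g (Y x i) * v i‖ ^ 2 ≤
        n * (2 * (Real.exp (K * (lam + L s)) * ‖v k‖) ^ 2) := by
      have := Finset.sum_le_card_nsmul Finset.univ (fun i => 2 * ‖g (Y x i) * v i‖ ^ 2) _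
        fun i _ => mul_le_mul_of_nonneg_left (pow_le_pow_left₀ (norm_nonneg _) (h1 i) 2)
          zero_le_two
      rwa [Finset.card_univ, ZMod.card, nsmul_eq_mul] at this
    have h3 : n * (2 * (Real.exp (K * (lam + L s)) * ‖v k‖) ^ 2) ≤ B s * P (s + 1) k := by
      have d0 := WrA.dd_pos (cv.maps hx k)
      have p := add_pos d0 (e0 (s + 1))
      have h4 : B s * P (s + 1) k = n * (2 * (Real.exp (K * (lam + L s)) * ‖v k‖) ^ 2) *
          ((2 * e (s + 1)) ^ 2 / (dd r (Y x k) + e (s + 1)) ^ 2) := by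
        simp only [hB, hP]
        field_simp
        ring
      rw [h4]
      refine le_mul_of_one_le_right (by positivity) ?_
      rw [one_le_div (pow_pos p 2)]
      exact pow_le_pow_left₀ p.le (by linarith) 2
    have h5 : B s * P (s + 1) k ≤ ∑ j, B s * P (s + 1) j :=
      Finset.single_le_sum (f := fun j => B s * P (s + 1) j)
        (fun j _ => mul_nonneg (B0 s) (P0 _ _)) (Finset.mem_univ k)
    have h6 : ∑ j, B s * P (s + 1) j ≤ ∑ s ∈ Finset.range n, ∑ j, B s * P (s + 1) j :=
      Finset.single_le_sum (f := fun s => ∑ j, B s * P (s + 1) j) (fun s _ => s2 s)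
        (Finset.mem_range.2 hs)
    linarith

end Vale.Agent.P097O
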