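import Vale.Agent.P097O.Hc1

/-!
# P097O: the minimum over the hot and cold forms (row 1704)
-/

set_option linter.all false

open Filter Topology Set Metric
open Vale.Agent.P097C

namespace Vale.Agent.P097O

open Hc in
theorem hc : S_HC := by
  classical
  intro n _ r ρ c C θ h g Q Y S cv
  refine ⟨max 1 (∑ j, ‖h (Y 0 j)‖ ^ 2), fun β M Γ hM hβ hβM hΓ => ?_⟩
  have M1 : 1 ≤ M := (le_max_left _ _).trans hM
  have n1 : (1 : ℝ) ≤ n := by exact_mod_cast NeZero.pos n
  have β0 : 0 < β := by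
    by_contra hb
    have := Real.exp_le_one_iff.2 (not_lt.1 hb)
    nlinarith
  have q0 : 0 ≤ 9 * β / M := by positivity
  set A : ℝ := Real.exp (12 * M) with hA
  have A1 : 1 ≤ A := Real.one_le_exp (by linarith)
  let kk : Bool → ℝ := fun b => if b then 2 * M else M
  let G : (ZMod n → Bool) → ℂ → ℝ := fun s x => A + ∑ j, Ev θ h g β M (s j) (Y x j)
  let Fs : (ZMod n → Bool) → ℂ → ℝ := fun s x =>
    Real.log (G s x) + 9 * β / M * ∑ j, Pv g Γ (kk (s j)) (Y x j)
  have GA : ∀ s x, A + ∑ j, ‖h (Y x j)‖ ^ 2 ≤ G s x := fun s x =>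
    add_le_add le_rfl (Finset.sum_le_sum fun j _ => h_le _ _)
  have S0 : ∀ x, 0 ≤ ∑ j, ‖h (Y x j)‖ ^ 2 := fun x => Finset.sum_nonneg fun j _ => sq_nonneg _
  have G1 : ∀ s x, 1 ≤ G s x := fun s x => by linarith [GA s x, S0 x]
  have G0 : ∀ s x, 0 < G s x := fun s x => one_pos.trans_le (G1 s x)
  have P0 : ∀ (s : ZMod n → Bool) x, 0 ≤ 9 * β / M * ∑ j, Pv g Γ (kk (s j)) (Y x j) := fun s x =>
    mul_nonneg q0 (Finset.sum_nonneg fun j _ => Pv_nn _)
  have cY : ∀ j, MapsTo (fun x => Y x j) (St ρ) (St r) := fun j x hx => cv.maps hx j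
  have cF : ∀ s, ContinuousOn (Fs s) (St ρ) := fun s =>
    ((continuousOn_const.add (continuousOn_finset_sum _ fun j _ =>
      (Ev_cont S (s j)).comp (cv.anY j).continuousOn (cY j))).log fun x _ => (G0 s x).ne').add
      (continuousOn_const.mul (continuousOn_finset_sum _ fun j _ =>
        (Pv_cont S.ang.continuousOn).comp (cv.anY j).continuousOn (cY j)))
  have ne : (Finset.univ : Finset (ZMod n → Bool)).Nonempty := Finset.univ_nonempty
  refine ⟨fun x => Finset.univ.inf' ne fun s => Fs s x,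
    ⟨ContinuousOn.finset_inf'_apply ne fun s _ => cF s, fun x _ => Finset.le_inf' _ _ fun s _ =>
      add_nonneg (Real.log_nonneg (G1 s x)) (P0 s x)⟩, ?_, fun x hx => ⟨?_, fun hθ hX hg => ?_⟩⟩
  · refine (Finset.inf'_le _ (Finset.mem_univ fun _ => false)).trans (add_le_add ?_ ?_)
    · rw [Real.log_le_iff_le_exp (G0 _ _), show 13 * M = 12 * M + M by ring, Real.exp_add]
      show A + ∑ j, ‖h (Y 0 j)‖ ^ 2 ≤ A * Real.exp M
      have := (le_max_right _ _).trans hM
      nlinarith [Real.add_one_le_exp M]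
    · have := Finset.sum_le_card_nsmul Finset.univ (fun j => Pv g Γ (kk false) (Y 0 j)) Γ
        fun j _ => Pv_le hΓ _
      rw [Finset.card_univ, ZMod.card, nsmul_eq_mul] at this
      exact (mul_le_mul_of_nonneg_left this q0).trans_eq (by ring)
  · obtain ⟨s, -, e⟩ := Finset.exists_mem_eq_inf' ne fun s => Fs s x
    show _ ≤ Real.exp (Finset.univ.inf' ne fun s => Fs s x)
    rw [e]
    have := (Real.log_le_iff_le_exp (G0 s x)).1 (le_add_of_nonneg_right (P0 s x))
    linarith [GA s x]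
  obtain ⟨s', -, hs'⟩ := Finset.exists_min_image Finset.univ (fun s => Fs s x) ne
  have mm : Real.exp (-(2 * M)) ≤ Real.exp (-M) := Real.exp_le_exp.2 (by linarith)
  obtain ⟨s, v1, v2, v3⟩ : ∃ s : ZMod n → Bool,
      (∀ j, s j = true → Real.exp (-(2 * M)) ≤ ‖g (Y x j)‖) ∧
      (∀ j, s j = false → ‖g (Y x j)‖ ≤ Real.exp (-M)) ∧ ∀ j, s j = s' j ∨
        (s j = false ∧ s' j = true ∧ ‖g (Y x j)‖ ≤ Real.exp (-(2 * M))) ∨
        (s j = true ∧ s' j = false ∧ Real.exp (-M) ≤ ‖g (Y x j)‖) := by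
    have : ∀ j, ∃ t : Bool, (t = true → Real.exp (-(2 * M)) ≤ ‖g (Y x j)‖) ∧
        (t = false → ‖g (Y x j)‖ ≤ Real.exp (-M)) ∧ (t = s' j ∨
          (t = false ∧ s' j = true ∧ ‖g (Y x j)‖ ≤ Real.exp (-(2 * M))) ∨
          (t = true ∧ s' j = false ∧ Real.exp (-M) ≤ ‖g (Y x j)‖)) := fun j => by
      cases e : s' j
      · rcases le_total ‖g (Y x j)‖ (Real.exp (-M)) with a | a
        · exact ⟨false, fun e => absurd e (by simp), fun _ => a, .inl rfl⟩
        · exact ⟨true, fun _ => mm.trans a, fun e => absurd e (by simp), .inr (.inr ⟨rfl, rfl, a⟩)⟩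
      · rcases le_total ‖g (Y x j)‖ (Real.exp (-(2 * M))) with a | a
        · exact ⟨false, fun e => absurd e (by simp), fun _ => a.trans mm, .inr (.inl ⟨rfl, rfl, a⟩)⟩
        · exact ⟨true, fun _ => a, fun e => absurd e (by simp), .inl rfl⟩
    choose s v1 v2 v3 using this
    exact ⟨s, v1, v2, v3⟩
  set H : ℝ := ∑ i, ‖h (Y x i)‖ with hH
  have hj : ∀ j, ‖h (Y x j)‖ ≤ H := fun j =>
    Finset.single_le_sum (f := fun i => ‖h (Y x i)‖) (fun i _ => norm_nonneg _) (Finset.mem_univ j)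
  have H2 : ∀ t, H ^ 2 ≤ n * G t x := fun t => by
    have := sq_sum_le_card_mul_sum_sq (s := Finset.univ) (f := fun i => ‖h (Y x i)‖)
    rw [Finset.card_univ, ZMod.card] at this
    exact this.trans (mul_le_mul_of_nonneg_left (by linarith [GA t x]) (by linarith))
  have sw : ∀ j, s j = true → s' j = false → Real.exp (-M) ≤ ‖g (Y x j)‖ →
      Pv g Γ (kk (s j)) (Y x j) + M ≤ Pv g Γ (kk (s' j)) (Y x j) := fun j a b e => by
    have g0 : g (Y x j) ≠ 0 := norm_pos_iff.1 ((Real.exp_pos _).trans_le e)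
    have a1 := (Pv_ge (Γ := Γ) (k := 2 * M) g0).2 (log_lt g0 (hg j)).le
    have a2 := Pv_high (Γ := Γ) e
    rw [a, b]
    show Pv g Γ (2 * M) (Y x j) + M ≤ Pv g Γ M (Y x j)
    linarith
  have pa : ∀ j, Pv g Γ (kk (s j)) (Y x j) ≤ Pv g Γ (kk (s' j)) (Y x j) := fun j => by
    rcases v3 j with a | ⟨a, b, e⟩ | ⟨a, b, e⟩
    · rw [a]
    · rw [a, b]
      exact (Pv_le hΓ _).trans_eq (Pv_low hΓ e).symm
    · linarith [sw j a b e]
  have le : Fs s x ≤ Fs s' x := by
    by_cases hc : ∃ j, s j = true ∧ s' j = false ∧ Real.exp (-M) ≤ ‖g (Y x j)‖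
    · obtain ⟨i, a, b, e⟩ := hc
      have a1 : ∑ j, Pv g Γ (kk (s j)) (Y x j) + M ≤ ∑ j, Pv g Γ (kk (s' j)) (Y x j) := by
        rw [← Finset.add_sum_erase _ _ (Finset.mem_univ i),
          ← Finset.add_sum_erase _ (fun j => Pv g Γ (kk (s' j)) (Y x j)) (Finset.mem_univ i)]
        linarith [sw i a b e, Finset.sum_le_sum fun j (_ : j ∈ Finset.univ.erase i) => pa j]
      have a2 : ∑ j, Ev θ h g β M (s j) (Y x j) ≤ ∑ j : ZMod n, (Ev θ h g β M (s' j) (Y x j) +
          8 * Real.exp (8 * β) * H ^ 2) := Finset.sum_le_sum fun j _ => by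
        have p : 0 ≤ 8 * Real.exp (8 * β) * H ^ 2 := by positivity
        cases e : s j
        · exact (h_le (θ := θ) (g := g) (β := β) (M := M) (s' j) _).trans (le_add_of_nonneg_right p)
        · exact (Ev_le β0.le (hj j) (hX j) (hθ j)).trans (le_add_of_nonneg_left (Ev_nn _ _))
      rw [Finset.sum_add_distrib, Finset.sum_const, Finset.card_univ, ZMod.card, nsmul_eq_mul] at a2
      have a3 : G s x ≤ Real.exp (9 * β) * G s' x := by
        have b1 : G s x ≤ G s' x + n * (8 * Real.exp (8 * β) * H ^ 2) := by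
          simp only [G]
          linarith
        have b2 := mul_le_mul_of_nonneg_left (H2 s')
          (show 0 ≤ n * (8 * Real.exp (8 * β)) by positivity)
        have b3 : 1 ≤ Real.exp (8 * β) := Real.one_le_exp (by linarith)
        have b4 := mul_le_mul_of_nonneg_left hβ (mul_pos (Real.exp_pos (8 * β)) (G0 s' x)).le
        have b5 := mul_le_mul_of_nonneg_right b3 (G0 s' x).le
        rw [show 9 * β = 8 * β + β by ring, Real.exp_add]
        nlinarith
      have a4 := Real.log_le_log (G0 s x) a3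
      rw [Real.log_mul (Real.exp_pos _).ne' (G0 s' x).ne', Real.log_exp] at a4
      have a5 := mul_le_mul_of_nonneg_left a1 q0
      have a6 : 9 * β / M * M = 9 * β := div_mul_cancel₀ _ (by linarith)
      simp only [Fs]
      rw [mul_add, a6] at a5
      linarith
    · refine add_le_add (Real.log_le_log (G0 s x) (add_le_add le_rfl (Finset.sum_le_sum
        fun j _ => ?_))) (mul_le_mul_of_nonneg_left (Finset.sum_le_sum fun j _ => pa j) q0)
      rcases v3 j with a | ⟨a, b, e⟩ | a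
      · rw [a]
      · rw [a]
        exact h_le _ _
      · exact absurd ⟨j, a⟩ hc
  have aj : ∀ j, ∃ a : ℝ, UJ (Ev θ h g β M (s j)) (Y x j) a ∧ a ≤ (8 * c ^ 2 + 4 * n) * G s x ∧
      UJ (Pv g Γ (kk (s j))) (Y x j) 0 := fun j => by
    have hy := cv.maps hx j
    cases e : s j
    · refine ⟨_, Ev_uj_cold (S.anh _ hy), ?_, Pv_uj_low hΓ (v2 j e)⟩
      have b1 : ‖deriv h (Y x j)‖ ≤ H := by
        refine (hX j).trans ?_
        rw [← mul_assoc]
        refine mul_le_of_le_one_left ((norm_nonneg _).trans (hj j))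
          ((mul_le_mul_of_nonneg_left (v2 j e) (Real.exp_pos _).le).trans ?_)
        rw [← Real.exp_add, Real.exp_le_one_iff]
        linarith
      nlinarith [pow_le_pow_left₀ (norm_nonneg _) b1 2, H2 s, mul_nonneg (sq_nonneg c) (G0 s x).le]
    · refine ⟨_, Ev_uj_hot S hy β0 hβM (v1 j e) (hθ j), ?_, Pv_uj_high (S.ang _ hy) (v1 j e) (hg j)⟩
      have b1 : A ≤ G s x := by linarith [GA s x, S0 x]
      nlinarith [mul_le_mul_of_nonneg_left b1 (sq_nonneg c), G0 s x]
  choose a j1 j2 j3 using aj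
  have J1 := uj_log ((UJ.const A x).add (UJ.sum Finset.univ
    (u := fun j x => Ev θ h g β M (s j) (Y x j)) fun j _ =>
      UJ.pull (F := fun x => Y x j) (cv.anY j x hx) (j1 j))) (.of_forall fun x => G0 s x)
  have J2 := (UJ.sum Finset.univ (u := fun j x => Pv g Γ (kk (s j)) (Y x j)) fun j _ =>
    UJ.pull (F := fun x => Y x j) (cv.anY j x hx) (j3 j)).smul q0
  refine ((J1.add J2).mono ?_).touch
    (.of_forall fun z => Finset.inf'_le (fun s => Fs s z) (Finset.mem_univ s))
    (le_antisymm (Finset.inf'_le (fun s => Fs s x) (Finset.mem_univ s))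
      (Finset.le_inf' _ _ fun t ht => le.trans (hs' t ht)))
  simp only [zero_mul, Finset.sum_const_zero, mul_zero, add_zero, zero_add]
  rw [div_le_iff₀ (G0 s x), mul_right_comm, Finset.mul_sum]
  exact Finset.sum_le_sum fun j _ => mul_le_mul_of_nonneg_right (j2 j) (sq_nonneg _)

end Vale.Agent.P097O
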