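import Vale.Agent.P097O.Defs

/-!
# P097O: assembly of the block of the offsets
-/

set_option linter.all false

open Filter Topology Set Metric
open Vale.Agent.P097C

namespace Vale.Agent.P097O

namespace OffA

/-- the least depth -/
lemma exD {n : ℕ} [NeZero n] {r ρ : ℝ} {Y : ℂ → ZMod n → ℂ} (cv : Cv r ρ Y) :
    ∃ D : ℂ → ℝ, Bar (St ρ) D ∧ ∀ x ∈ St ρ, UJ D x 0 ∧ (∀ j, D x ≤ dd r (Y x j)) ∧
      ∃ j, D x = dd r (Y x j) := by
  have ne : (Finset.univ : Finset (ZMod n)).Nonempty := Finset.univ_nonempty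
  have le : ∀ x j, Finset.univ.inf' ne (fun j => dd r (Y x j)) ≤ dd r (Y x j) := fun x j =>
    Finset.inf'_le (fun j => dd r (Y x j)) (Finset.mem_univ j)
  have ex : ∀ x, ∃ j, Finset.univ.inf' ne (fun j => dd r (Y x j)) = dd r (Y x j) := fun x =>
    let ⟨j, _, hj⟩ := Finset.exists_mem_eq_inf' ne (fun j => dd r (Y x j)); ⟨j, hj⟩
  refine ⟨fun x => Finset.univ.inf' ne (fun j => dd r (Y x j)), ⟨fun x hx => ?_, fun x hx => ?_⟩,
    fun x hx => ⟨?_, le x, ex x⟩⟩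
  · exact ContinuousWithinAt.finset_inf'_apply ne (f := fun j x => dd r (Y x j))
      fun j _ => (cv.bar (dd_bar r) j).1 x hx
  · obtain ⟨j, hj⟩ := ex x
    show 0 ≤ Finset.univ.inf' ne (fun j => dd r (Y x j))
    rw [hj]
    exact (dd_pos (cv.maps hx j)).le
  · obtain ⟨j, hj⟩ := ex x
    have k4 : UJ (fun x => dd r (Y x j)) x 0 :=
      ((dd_uj r _).pull (cv.anY j x hx)).mono (by nlinarith [sq_nonneg ‖deriv (fun x => Y x j) x‖])
    exact k4.touch (.of_forall fun y => le y j) hj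

lemma exp_small {a e : ℝ} (he : 0 < e) : ∀ᶠ lam : ℝ in atTop, a * Real.exp (-lam) ≤ e := by
  have := (Real.tendsto_exp_neg_atTop_nhds_zero.const_mul a).eventually
    (ge_mem_nhds (show a * 0 < e by simpa using he))
  exact this

lemma z1 {n β μ lam C₁ E k δ ε F : ℝ} (n0 : 0 < n) (μ0 : 0 < μ) (l1 : 1 ≤ lam) (kδ : 0 < k * δ)
    (hβ : β = k * (δ * lam)) (δ2 : n * (9 * (k * δ) / μ * (2 * C₁ * E + 2 * μ + 1)) ≤ ε / 10)
    (zF : F ≤ 13 * (μ * lam) + n * (9 * β / (μ * lam) * (2 * C₁ * (lam * E) + 2 * (μ * lam) + 1))) :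
    lam⁻¹ * F ≤ 13 * μ + ε / 10 := by
  have l0 : 0 < lam := by linarith
  rw [inv_mul_le_iff₀ l0]
  refine zF.trans ?_
  have q1 : 2 * C₁ * (lam * E) + 2 * (μ * lam) + 1 ≤ (2 * C₁ * E + 2 * μ + 1) * lam := by linarith
  have q2 : 9 * β / (μ * lam) = 9 * (k * δ) / μ := by rw [hβ]; field_simp
  rw [q2]
  have q3 : n * (9 * (k * δ) / μ * (2 * C₁ * (lam * E) + 2 * (μ * lam) + 1)) ≤
      n * (9 * (k * δ) / μ * ((2 * C₁ * E + 2 * μ + 1) * lam)) := by gcongr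
  have q4 := mul_le_mul_of_nonneg_right δ2 l0.le
  have q5 : n * (9 * (k * δ) / μ * ((2 * C₁ * E + 2 * μ + 1) * lam)) =
    n * (9 * (k * δ) / μ * (2 * C₁ * E + 2 * μ + 1)) * lam := by ring
  linarith

lemma z4 {n β lam e P : ℝ} (n0 : 0 < n) (l0 : 0 < lam) (βl : β ≤ lam)
    (zP : P ≤ 4 * n ^ 3 * Real.exp (-(4 * lam))) (e8 : 8 * n ^ 4 * Real.exp (-lam) ≤ e) :
    2 * n * Real.exp β ^ 2 * P ≤ e := by
  refine (mul_le_mul_of_nonneg_left zP (by positivity)).trans (le_trans ?_ e8)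
  have q1 : Real.exp β ^ 2 * Real.exp (-(4 * lam)) ≤ Real.exp (-lam) := by
    rw [← Real.exp_nat_mul, ← Real.exp_add]
    exact Real.exp_le_exp.2 (by push_cast; linarith)
  have q2 : 2 * n * Real.exp β ^ 2 * (4 * n ^ 3 * Real.exp (-(4 * lam))) =
      8 * n ^ 4 * (Real.exp β ^ 2 * Real.exp (-(4 * lam))) := by ring
  rw [q2]
  gcongr

lemma ee (lam : ℝ) : Real.exp (-(2 * lam)) * Real.exp lam ^ 2 = 1 := by
  rw [← Real.exp_nat_mul, ← Real.exp_add]; simp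

lemma sF {lam F c1 S : ℝ} (l0 : 0 < lam) (c0 : 0 ≤ c1) (hS : S ≤ Real.exp F)
    (q : lam⁻¹ * F + c1 < 1) : S ≤ Real.exp lam := by
  have : lam⁻¹ * F ≤ 1 := by linarith
  rw [inv_mul_le_iff₀ l0, mul_one] at this
  exact hS.trans (Real.exp_le_exp.2 this)

lemma sH {lam F c1 S D : ℝ} (l0 : 0 < lam) (c0 : 0 ≤ c1) (hS : S ≤ Real.exp F) (D0 : 0 ≤ D)
    (m : min (lam⁻¹ * F + c1) (Real.exp (-(2 * lam)) * S + D) < 1) : S ≤ Real.exp lam ^ 2 := by
  rcases min_lt_iff.1 m with q | q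
  · exact (sF l0 c0 hS q).trans (le_self_pow₀ (Real.one_le_exp l0.le) two_ne_zero)
  · refine le_of_mul_le_mul_left ?_ (Real.exp_pos (-(2 * lam)))
    rw [ee]
    linarith

lemma q3 {lam L F S D : ℝ} (l0 : 0 < lam) (F0 : 0 ≤ F) (hS : S ≤ Real.exp lam)
    (q : lam⁻¹ * F + (Real.exp (-lam) + 2 * Real.exp (-L)) ≤
      Real.exp (-(2 * lam)) * S + 2 * Real.exp L * D) : Real.exp (-(2 * L)) ≤ D := by
  have q2 : Real.exp (-(2 * lam)) * S ≤ Real.exp (-lam) := by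
    refine (mul_le_mul_of_nonneg_left hS (Real.exp_pos _).le).trans_eq ?_
    rw [← Real.exp_add]; congr 1; ring
  refine le_of_mul_le_mul_left ?_ (Real.exp_pos L)
  have : Real.exp L * Real.exp (-(2 * L)) = Real.exp (-L) := by
    rw [← Real.exp_add]; congr 1; ring
  have t := mul_nonneg (inv_pos.2 l0).le F0
  rw [this]
  linarith

lemma q1 {L T D : ℝ} (T0 : 0 ≤ T) (D0 : 0 ≤ D) (q : T + 2 * Real.exp L * D < 1) :
    D < Real.exp (-L) := by
  refine lt_of_mul_lt_mul_left ?_ (Real.exp_pos L).le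
  have : Real.exp L * Real.exp (-L) = 1 := by rw [← Real.exp_add]; simp
  rw [this]
  linarith [mul_nonneg (Real.exp_pos L).le D0]

lemma q2 {n lam β S : ℝ} {a g v : ℂ} (S0 : 0 ≤ S) (xb : ‖a‖ ≤ Real.exp β * (‖g‖ * S))
    (cs : S ^ 2 ≤ n * Real.exp lam ^ 2) :
    Real.exp (-(2 * lam)) * (4 * ‖a * v‖ ^ 2) ≤ 2 * n * Real.exp β ^ 2 * (2 * ‖g * v‖ ^ 2) := by
  have d2 := pow_le_pow_left₀ (norm_nonneg _) xb 2
  rw [mul_pow, mul_pow] at d2
  have d3 : ‖a‖ ^ 2 ≤ Real.exp β ^ 2 * (‖g‖ ^ 2 * (n * Real.exp lam ^ 2)) := d2.trans (by gcongr)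
  rw [norm_mul, norm_mul, mul_pow, mul_pow]
  calc _ ≤ Real.exp (-(2 * lam)) * (4 * (Real.exp β ^ 2 * (‖g‖ ^ 2 *
        (n * Real.exp lam ^ 2)) * ‖v‖ ^ 2)) := by gcongr
    _ = (Real.exp (-(2 * lam)) * Real.exp lam ^ 2) *
        (2 * n * Real.exp β ^ 2 * (2 * (‖g‖ ^ 2 * ‖v‖ ^ 2))) := by ring
    _ = _ := by rw [ee, one_mul]

lemma exδ {n k μ G ε : ℝ} (n0 : 0 < n) (k1 : 1 ≤ k) (μ0 : 0 < μ) (G0 : 0 < G) (ε0 : 0 < ε) :
    ∃ δ : ℝ, 0 < δ ∧ 2 * k * δ ≤ μ ∧ n * (9 * (k * δ) / μ * G) ≤ ε / 10 := by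
  have k0 : 0 < k := by linarith
  refine ⟨min (μ / (2 * k)) (ε / 10 * μ / (n * 9 * k * G)), lt_min (by positivity) (by positivity),
    ?_, ?_⟩
  · have := min_le_left (μ / (2 * k)) (ε / 10 * μ / (n * 9 * k * G))
    rw [le_div_iff₀ (by positivity)] at this
    linarith
  · have := min_le_right (μ / (2 * k)) (ε / 10 * μ / (n * 9 * k * G))
    rw [le_div_iff₀ (by positivity)] at this
    rw [show ∀ t : ℝ, n * (9 * (k * t) / μ * G) = t * (n * 9 * k * G) / μ from fun t => by ring,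
      div_le_iff₀ μ0]
    exact this

end OffA

open OffA in
theorem off (hX : S_XB) (hD : S_DPAY) (hH : S_HC) : S_OFF := by
  intro n _ r ρ c C θ h g Q Y sd cv ax ⟨C₁, L₀, C1, pg⟩ K ε₀ K1 ε00
  obtain ⟨ε, ε0, ε1, εε⟩ : ∃ ε : ℝ, 0 < ε ∧ ε ≤ 1 ∧ ε ≤ ε₀ :=
    ⟨min 1 ε₀, lt_min one_pos ε00, min_le_left _ _, min_le_right _ _⟩
  have r0 := sd.r0
  have n0 : (0 : ℝ) < n := by exact_mod_cast NeZero.pos n
  obtain ⟨k, l1, k1, hX⟩ := hX n r ρ θ h g Y cv ax (ε / 5) (by positivity)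
  obtain ⟨M₀, hH⟩ := hH n r ρ c C θ h g Q Y sd cv
  obtain ⟨D, bD, hDD⟩ := exD cv
  obtain ⟨μ, hμ⟩ : ∃ μ : ℝ, μ = ε / 100 := ⟨_, rfl⟩
  have μ0 : 0 < μ := by rw [hμ]; positivity
  have K8 : (1 : ℝ) ≤ (8 * K) ^ n := one_le_pow₀ (by linarith)
  obtain ⟨δ, δ0, δ1, δ2⟩ := exδ (G := 2 * C₁ * (8 * K) ^ n + 2 * μ + 1) n0 k1 μ0
    (by positivity) ε0
  have kδ : 0 < k * δ := by positivity
  have kδ1 : k * δ ≤ 1 := by linarith
  have δ3 : δ ≤ k * δ := le_mul_of_one_le_left δ0.le k1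
  obtain ⟨κ, hκ⟩ : ∃ κ : ℝ, κ = ε / (10 * n * r ^ 2) := ⟨_, rfl⟩
  have κ0 : 0 < κ := by rw [hκ]; positivity
  have ev : ∀ᶠ lam : ℝ in atTop, 1 ≤ lam ∧ l1 ≤ δ * lam ∧ M₀ ≤ μ * lam ∧
      8 * (n : ℝ) ^ 2 ≤ k * δ * lam ∧ L₀ ≤ lam ∧ (8 * c ^ 2 + 4 * n) ≤ 2 * κ * lam ∧
      3 * Real.exp (-lam) ≤ ε / 5 ∧ 8 * (n : ℝ) ^ 4 * Real.exp (-lam) ≤ ε / 5 :=
    (eventually_ge_atTop 1).and (((tendsto_id.const_mul_atTop δ0).eventually_ge_atTop l1).and
      (((tendsto_id.const_mul_atTop μ0).eventually_ge_atTop M₀).and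
      (((tendsto_id.const_mul_atTop kδ).eventually_ge_atTop _).and ((eventually_ge_atTop L₀).and
      (((tendsto_id.const_mul_atTop (show 0 < 2 * κ by positivity)).eventually_ge_atTop _).and
      ((exp_small (by positivity)).and (exp_small (by positivity))))))))
  obtain ⟨lam₀, ev⟩ := eventually_atTop.1 ev
  refine ⟨δ, lam₀, δ0, by linarith, fun lam hl => ?_⟩
  obtain ⟨e1, e2, e3, e4, e5, e6, e7, e8⟩ := ev lam hl
  clear ev hl
  have l0 : 0 < lam := by linarith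
  obtain ⟨WX, bX, zX, hX⟩ := hX (δ * lam) e2
  obtain ⟨β, hβ⟩ : ∃ β : ℝ, β = k * (δ * lam) := ⟨_, rfl⟩
  rw [← hβ] at hX
  have hβ' : β = k * δ * lam := by rw [hβ, mul_assoc]
  have β0 : 0 ≤ β := by rw [hβ]; positivity
  have βl : β ≤ lam := by rw [hβ']; exact mul_le_of_le_one_left l0.le kδ1
  have βd : δ * lam ≤ β := by rw [hβ']; exact mul_le_mul_of_nonneg_right δ3 l0.le
  have βμ : 2 * β ≤ μ * lam := by
    have := mul_le_mul_of_nonneg_right δ1 l0.le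
    rw [hβ']; linarith
  obtain ⟨F, bF, zF, hF⟩ := hH β (μ * lam) (2 * C₁ * (lam * (8 * K) ^ n) + 2 * (μ * lam) + 1) e3
    (by rw [hβ']; linarith [Real.add_one_le_exp (k * δ * lam)]) βμ (by positivity)
  have z1' := z1 n0 μ0 e1 kδ hβ δ2 zF
  obtain ⟨Λ, P, cΛ, lΛ, bP, zP, hP⟩ := hD n r ρ g Y cv K lam K1 e1
  have z4' := z4 n0 l0 βl zP e8
  have Ll : lam ≤ lam * (8 * K) ^ n := le_mul_of_one_le_right l0.le K8
  generalize lam * (8 * K) ^ n = L at Ll hF hP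
  clear zF zP δ2 hH hD e3 e4 e8 K8 hβ hβ' δ1 δ3 kδ kδ1
  have aH : ∀ j, ∀ x ∈ St ρ, AnalyticAt ℂ (fun x => h (Y x j)) x := fun j x hx =>
    AnalyticAt.comp (g := h) (f := fun x => Y x j) (sd.anh _ (cv.maps hx j)) (cv.anY j x hx)
  have bS : Bar (St ρ) fun x => ∑ j, ‖h (Y x j)‖ ^ 2 := Bar.sum _ fun j _ =>
    ⟨fun x hx => ((aH j x hx).continuousAt.norm.pow 2).continuousWithinAt, fun _ _ => sq_nonneg _⟩
  have c10 : 0 ≤ Real.exp (-lam) + 2 * Real.exp (-L) := by positivity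
  have eL := Real.exp_pos L
  have e2l := Real.exp_pos (-(2 * lam))
  have A0 : 0 ≤ 2 * n * Real.exp β ^ 2 := by positivity
  have b1 : Bar (St ρ) fun x => lam⁻¹ * F x + (Real.exp (-lam) + 2 * Real.exp (-L)) :=
    (bF.smul (inv_pos.2 l0).le).add (Bar.const c10)
  have b2 : Bar (St ρ) fun x => Real.exp (-(2 * lam)) * ∑ j, ‖h (Y x j)‖ ^ 2 +
      2 * Real.exp L * D x := (bS.smul e2l.le).add (bD.smul (by positivity))
  have b3 : Bar (St ρ) fun x => κ * ∑ j, dd r (Y x j) :=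
    (Bar.sum _ fun j _ => cv.bar (dd_bar r) j).smul κ0.le
  have b4 : Bar (St ρ) fun x => 2 * n * Real.exp β ^ 2 * P x := bP.smul A0
  refine ⟨Λ, _, cΛ, lΛ, (((b1.min b2).add b3).add b4).add bX, ?_, fun x hx hW => ?_⟩
  · have z2 : Real.exp (-lam) + 2 * Real.exp (-L) ≤ ε / 5 := by
      linarith [Real.exp_le_exp.2 (neg_le_neg Ll)]
    have z3 : κ * ∑ j, dd r (Y 0 j) = ε / 10 := by
      rw [Finset.sum_congr rfl fun j _ => dd_real (r := r) (cv.re0 j), Finset.sum_const,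
        Finset.card_univ, ZMod.card, nsmul_eq_mul, hκ]
      field_simp
    have z5 := min_le_left (lam⁻¹ * F 0 + (Real.exp (-lam) + 2 * Real.exp (-L)))
      (Real.exp (-(2 * lam)) * ∑ j, ‖h (Y 0 j)‖ ^ 2 + 2 * Real.exp L * D 0)
    show min _ _ + _ + _ + _ ≤ ε₀
    linarith
  · have p1 := b1.2 x hx
    have p2 := b2.2 x hx
    have p3 := b3.2 x hx
    have p4 := b4.2 x hx
    have p5 := bX.2 x hx
    have p6 := bS.2 x hx
    have p7 := bD.2 x hx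
    have p8 := bF.2 x hx
    beta_reduce at p1 p2 p3 p4 p6 hW
    have m0 := le_min p1 p2
    have m1 : min (lam⁻¹ * F x + (Real.exp (-lam) + 2 * Real.exp (-L)))
      (Real.exp (-(2 * lam)) * ∑ j, ‖h (Y x j)‖ ^ 2 + 2 * Real.exp L * D x) < 1 := by linarith
    have mX : WX x < 1 := by linarith
    obtain ⟨uD, lD, j0, hj0⟩ := hDD x hx
    have sH' := sH l0 c10 (hF x hx).1 (mul_nonneg (by positivity) p7) m1
    refine ⟨fun j => ?_, fun hθ hdr => ?_⟩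
    · exact le_of_pow_le_pow_left₀ two_ne_zero (Real.exp_pos _).le ((Finset.single_le_sum
        (f := fun j => ‖h (Y x j)‖ ^ 2) (fun i _ => sq_nonneg _) (Finset.mem_univ j)).trans sH')
    · obtain ⟨uX, xb⟩ := hX x hx hθ mX
      have u3 : UJ (fun x => κ * ∑ j, dd r (Y x j)) x
          (κ * ∑ j, -2 * ‖deriv (fun x => Y x j) x‖ ^ 2) :=
        (UJ.sum Finset.univ fun j _ => (dd_uj r _).pull (cv.anY j x hx)).smul κ0.le
      have s0 : 0 ≤ ∑ j, ‖deriv (fun x => Y x j) x‖ ^ 2 := Finset.sum_nonneg fun j _ => sq_nonneg _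
      rw [← Finset.mul_sum] at u3
      rcases le_total (lam⁻¹ * F x + (Real.exp (-lam) + 2 * Real.exp (-L)))
        (Real.exp (-(2 * lam)) * ∑ j, ‖h (Y x j)‖ ^ 2 + 2 * Real.exp L * D x) with q | q
      · rw [min_eq_left q] at m1
        have q3' := q3 l0 p8 (sF l0 c10 (hF x hx).1 m1) q
        have u1 := (hF x hx).2 (fun j => (hθ j).trans βd) xb fun j =>
          (pg (2 * L) (by linarith) _ (cv.maps hx j) (q3'.trans (lD j))).trans_lt
            (Real.exp_lt_exp.2 (by linarith))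
        have u2 := ((u1.smul (inv_pos.2 l0).le).add (UJ.const _ x)).min_left
          (v := fun x => Real.exp (-(2 * lam)) * ∑ j, ‖h (Y x j)‖ ^ 2 + 2 * Real.exp L * D x) q
        refine (((u2.add u3).add ((hP x hx).1.smul A0)).add uX).mono ?_
        have q5 : lam⁻¹ * (8 * c ^ 2 + 4 * n) ≤ 2 * κ := by
          rw [inv_mul_le_iff₀ l0]; linarith
        have q6 := mul_le_mul_of_nonneg_right q5 s0
        rw [← mul_assoc, ← mul_assoc]
        linarith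
      · rw [min_eq_right q] at m1
        have q1' := q1 (mul_nonneg e2l.le p6) p7 m1
        have u4 := ((hP x hx).2 ⟨j0, by rw [← hj0]; exact q1'⟩ hdr).smul A0
        have u1 := (UJ.sum Finset.univ fun j _ => (EJ.normSq (aH j x hx)).uj).smul e2l.le
        have u2 := (u1.add (uD.smul (show 0 ≤ 2 * Real.exp L by positivity))).min_right
          (u := fun x => lam⁻¹ * F x + (Real.exp (-lam) + 2 * Real.exp (-L))) q
        refine (((u2.add u3).add u4).add uX).mono ?_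
        have cs : (∑ i, ‖h (Y x i)‖) ^ 2 ≤ n * Real.exp lam ^ 2 := by
          have := sq_sum_le_card_mul_sum_sq (s := Finset.univ) (f := fun i => ‖h (Y x i)‖)
          rw [Finset.card_univ, ZMod.card] at this
          exact this.trans (mul_le_mul_of_nonneg_left sH' n0.le)
        have q2' : ∀ j, Real.exp (-(2 * lam)) * (4 * ‖deriv (fun x => h (Y x j)) x‖ ^ 2) ≤
            2 * n * Real.exp β ^ 2 * (2 * ‖g (Y x j) * deriv (fun x => Y x j) x‖ ^ 2) := fun j => by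
          have d1 : deriv (fun x => h (Y x j)) x = deriv h (Y x j) * deriv (fun x => Y x j) x :=
            ((sd.anh _ (cv.maps hx j)).differentiableAt.hasDerivAt.comp x
              (cv.anY j x hx).differentiableAt.hasDerivAt).deriv
          rw [d1]
          exact q2 (Finset.sum_nonneg fun _ _ => norm_nonneg _) (xb j) cs
        have q3' : Real.exp (-(2 * lam)) * ∑ j, 4 * ‖deriv (fun x => h (Y x j)) x‖ ^ 2 ≤
            2 * n * Real.exp β ^ 2 * ∑ j, 2 * ‖g (Y x j) * deriv (fun x => Y x j) x‖ ^ 2 := by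
          rw [Finset.mul_sum, Finset.mul_sum]
          exact Finset.sum_le_sum fun j _ => q2' j
        have q4 := mul_nonneg κ0.le s0
        rw [mul_neg, mul_zero, mul_left_comm κ]
        linarith

end Vale.Agent.P097O
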