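import Vale.Agent.P097O.Spec3
import Vale.Agent.P097K.Wfin

/-!
# P097O: the last step at one scale (row 1718)
-/

set_option linter.all false

open Filter Topology Set Metric
open Vale.Agent.P097C

namespace Vale.Agent.P097O

namespace One3

/-- the mass -/
noncomputable def ms (r k : ℝ) (y : ℂ) : ℝ := 1 - k * (dd r y + k)⁻¹

theorem ms_jet {r k : ℝ} {y : ℂ} (hy : y ∈ St r) (hk : 0 < k) : ∃ b a, EJ (ms r k) y b a ∧
    a ≤ 0 ∧ (dd r y ≤ k → a ≤ -(r ^ 2 / (4 * k ^ 2))) := by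
  have d0 := dd_pos hy
  have p : 0 < dd r y + k := add_pos d0 hk
  refine ⟨_, _, ((((dd_ej r y).add_const k).inv p.ne').smul k).const_sub 1, ?_, fun h => ?_⟩
  · exact neg_nonpos.2 (mul_nonneg hk.le (add_nonneg (by rw [neg_neg]; positivity) (by positivity)))
  · rw [dd_b, neg_neg]
    refine neg_le_neg ?_
    have e : r ^ 2 = dd r y + y.im ^ 2 := by simp [dd]
    have e1 : k * (2 / (dd r y + k) ^ 2 + 2 * (4 * y.im ^ 2) / (dd r y + k) ^ 3) =
        2 * k * (dd r y + k + 4 * y.im ^ 2) / (dd r y + k) ^ 3 := by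
      field_simp
    rw [e1, div_le_div_iff₀ (by positivity) (by positivity)]
    have a1 : (dd r y + k) ^ 3 ≤ (2 * k) ^ 3 := pow_le_pow_left₀ p.le (by linarith) 3
    have a2 : r ^ 2 ≤ dd r y + k + 4 * y.im ^ 2 := by nlinarith [sq_nonneg y.im]
    calc r ^ 2 * (dd r y + k) ^ 3 ≤ (dd r y + k + 4 * y.im ^ 2) * (2 * k) ^ 3 := by gcongr
      _ = _ := by ring

theorem ms_nn {r k : ℝ} {y : ℂ} (hy : y ∈ St r) (hk : 0 < k) : 0 ≤ ms r k y ∧ ms r k y ≤ 1 := by
  have d0 := dd_pos hy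
  have p : 0 < dd r y + k := add_pos d0 hk
  refine ⟨sub_nonneg.2 ?_, sub_le_self _ (by positivity)⟩
  rw [← div_eq_mul_inv, div_le_one p]
  linarith

/-- the profile -/
noncomputable def pf (d t : ℝ) : ℝ := min 1 ((max (2 * d - t) 0 / d) ^ 2)

theorem pf_cont (d : ℝ) : Continuous (pf d) := by
  unfold pf
  fun_prop

theorem pf_nn (d t : ℝ) : 0 ≤ pf d t := le_min one_pos.le (sq_nonneg _)

theorem pf_one {d t : ℝ} (hd : 0 < d) (h : t ≤ d) : pf d t = 1 :=
  min_eq_left (one_le_pow₀ ((one_le_div hd).2 (le_max_of_le_left (by linarith))))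

theorem pf_zero {d t : ℝ} (h : 2 * d ≤ t) : pf d t = 0 := by
  rw [pf, max_eq_right (by linarith)]
  simp

theorem pf_le {d : ℝ} (hd : 0 < d) (t : ℝ) : pf d t ≤ (d ^ 2)⁻¹ * (2 * d - t) ^ 2 := by
  refine (min_le_right _ _).trans ?_
  rw [div_pow, div_eq_inv_mul]
  refine mul_le_mul_of_nonneg_left ?_ (by positivity)
  rcases le_total (2 * d - t) 0 with h | h
  · rw [max_eq_right h]
    nlinarith
  · rw [max_eq_left h]

theorem pf_mid {d t : ℝ} (hd : 0 < d) (h1 : d ≤ t) (h2 : t ≤ 2 * d) :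
    pf d t = (d ^ 2)⁻¹ * (2 * d - t) ^ 2 := by
  rw [pf, max_eq_left (by linarith), min_eq_right (pow_le_one₀ (div_nonneg (by linarith) hd.le)
    ((div_le_one hd).2 (by linarith))), div_pow, div_eq_inv_mul]

end One3

open One3 in
theorem one3 : S_ONE3 := by
  intro n _ r ρ g Y hB hY ε hε b
  have hr := hY.r0
  have n0 : (0 : ℝ) < n := Nat.cast_pos.2 (NeZero.pos n)
  set C' : ℝ := 8 * n ^ 2 * r ^ 2 + 4 * n with hC'
  have C0 : 0 < C' := by positivity
  obtain ⟨A, A1, hA⟩ : ∃ A : ℝ, 1 ≤ A ∧ C' * (4 / (r ^ 2 * A ^ 2)) * n ≤ ε / 2 := by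
    refine ⟨1 + 8 * C' * n / (r ^ 2 * ε), le_add_of_nonneg_right (by positivity), ?_⟩
    have q : 0 < 8 * C' * n / (r ^ 2 * ε) := by positivity
    have e : 8 * C' * n = 8 * C' * n / (r ^ 2 * ε) * (r ^ 2 * ε) := by field_simp
    generalize 8 * C' * n / (r ^ 2 * ε) = t at *
    rw [mul_right_comm, mul_div_assoc', div_le_div_iff₀ (by positivity) (by positivity)]
    have : t ≤ (1 + t) ^ 2 := by nlinarith
    nlinarith [mul_le_mul_of_nonneg_left this (show 0 ≤ r ^ 2 * ε by positivity)]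
  obtain ⟨d, d0, d1, P, bP, hR, hP⟩ := hB b A (ε / (2 * C' * n)) (min 1 (r ^ 2 / 2)) A1
    (by positivity) (by positivity)
  have d2 : d ≤ 1 := d1.trans (min_le_left _ _)
  have d3 : 2 * d ≤ r ^ 2 := by linarith [d1.trans (min_le_right _ _)]
  have k0 : 0 < d / A := by positivity
  set κ : ℝ := C' * (4 / (r ^ 2 * A ^ 2)) with hκ
  have κ0 : 0 < κ := by positivity
  refine ⟨-Real.log (d / n), fun N hN T hT => ?_⟩
  have eN : n * Real.exp (-N) ≤ d := by
    have := Real.exp_le_exp.2 (show -N ≤ Real.log (d / n) by linarith)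
    rw [Real.exp_log (by positivity), le_div_iff₀ n0] at this
    linarith
  have hc : (Tᶜ.card : ℝ) ≤ n := by
    exact_mod_cast (Finset.card_le_univ Tᶜ).trans (ZMod.card n).le
  let S : ℂ → ℝ := fun x => ∑ j ∈ Tᶜ, dd r (Y x j)
  have mY : ∀ x ∈ St ρ, ∀ j, Y x j ∈ St r := fun x hx j => hY.maps hx j
  have jS : ∀ x ∈ St ρ, EJ S x _ _ := fun x hx =>
    EJ.sum Tᶜ fun j _ => P097K.wfin_dd r (hY.anY j x hx)
  have bm : Bar (St r) (ms r (d / A)) := ⟨fun y hy =>
    (ms_jet hy k0).choose_spec.choose_spec.1.continuousAt.continuousWithinAt,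
    fun y hy => (ms_nn hy k0).1⟩
  have b1 : Bar (St ρ) fun x => pf d (S x) := ⟨(pf_cont d).comp_continuousOn fun x hx =>
    (jS x hx).continuousAt.continuousWithinAt, fun x _ => pf_nn _ _⟩
  have b2 : Bar (St ρ) fun x => ∑ j, (C' * P (Y x j) + κ * ms r (d / A) (Y x j)) :=
    Bar.sum _ fun j _ => ((hY.bar bP j).smul C0.le).add ((hY.bar bm j).smul κ0.le)
  have h0 : (0 : ℂ) ∈ St ρ := St_zero hY.ρ0
  have sd : ∀ x ∈ St ρ, ∀ i ∉ T, dd r (Y x i) ≤ S x := fun x hx i hi =>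
    Finset.single_le_sum (f := fun j => dd r (Y x j)) (fun j _ => (dd_pos (mY x hx j)).le)
      (Finset.mem_compl.2 hi)
  refine ⟨fun x => pf d (S x) + ∑ j, (C' * P (Y x j) + κ * ms r (d / A) (Y x j)), b1.add b2, ?_,
    fun x hx => ⟨fun h => ?_, fun ⟨i, hi, _, h2, h3⟩ => ?_⟩⟩
  · obtain ⟨i, hi⟩ : ∃ i, i ∉ T := by
      by_contra hn
      exact hT (Finset.eq_univ_of_forall fun i => by_contra fun h => hn ⟨i, h⟩)
    have a1 := sd 0 h0 i hi
    rw [dd_real (hY.re0 i)] at a1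
    have a3 := Finset.sum_le_card_nsmul Finset.univ
      (fun j => C' * P (Y 0 j) + κ * ms r (d / A) (Y 0 j)) (C' * (ε / (2 * C' * n)) + κ * 1)
      fun j _ => add_le_add (mul_le_mul_of_nonneg_left (by
        have e : Y 0 j = ((Y 0 j).re : ℝ) := Complex.ext rfl (by simp [hY.re0 j])
        rw [e]
        exact hR _) C0.le) (mul_le_mul_of_nonneg_left (ms_nn (mY 0 h0 j) k0).2 κ0.le)
    rw [Finset.card_univ, ZMod.card, nsmul_eq_mul] at a3
    have a5 : n * (C' * (ε / (2 * C' * n)) + κ * 1) = ε / 2 + κ * n := by field_simp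
    beta_reduce
    rw [pf_zero (d3.trans a1)]
    linarith
  · have a1 : S x ≤ d := ((Finset.sum_le_card_nsmul _ _ _ fun j hj =>
      h j (Finset.mem_compl.1 hj)).trans (by
        rw [nsmul_eq_mul]
        exact mul_le_mul_of_nonneg_right hc (Real.exp_pos _).le)).trans eN
    beta_reduce
    rw [pf_one d0 a1]
    exact le_add_of_nonneg_right (b2.2 x hx)
  simp only at h2 h3
  set V := ‖deriv (fun x => Y x i) x‖ with hV
  have u0 : ∀ j, UJ (fun x => C' * P (Y x j) + κ * ms r (d / A) (Y x j)) x 0 := fun j => by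
    obtain ⟨_, a, j1, j2, -⟩ := ms_jet (mY x hx j) k0
    exact ((((hP _ (mY x hx j)).1.pull (hY.anY j x hx)).smul C0.le).add
      (((j1.uj.mono j2).pull (hY.anY j x hx)).smul κ0.le)).mono (by simp)
  have u1 : UJ (fun x => ∑ j, (C' * P (Y x j) + κ * ms r (d / A) (Y x j))) x 0 :=
    (UJ.sum _ fun j _ => u0 j).mono (by simp)
  rcases le_total (S x) d with c1 | c1
  · exact (((UJ.const 1 x).touch (W := fun x => pf d (S x)) (.of_forall fun z => min_le_left _ _)
      (pf_one d0 c1)).add u1).mono (add_zero _).le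
  rcases lt_or_ge (2 * d) (S x) with c2 | c2
  · refine (((UJ.const 0 x).congr ?_).add u1).mono (by simp)
    filter_upwards [(jS x hx).continuousAt.eventually (lt_mem_nhds c2)] with z hz
    exact (pf_zero hz.le).symm
  have e1 := (((jS x hx).const_sub (2 * d)).sq.smul (d ^ 2)⁻¹).uj.touch
    (W := fun x => pf d (S x)) (.of_forall fun z => pf_le d0 _) (pf_mid d0 c1 c2)
  have e2 : UJ (fun x => ∑ j, (C' * P (Y x j) + κ * ms r (d / A) (Y x j))) x
      (∑ j, if j = i then -(C' * (V ^ 2 / d ^ 2)) else 0) := UJ.sum _ fun j _ => by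
    split_ifs with hj
    · subst hj
      by_cases hv : deriv (fun x => Y x j) x = 0
      · exact (u0 j).mono (by simp [V, hv])
      obtain ⟨_, a, j1, j2, j3⟩ := ms_jet (mY x hx j) k0
      rcases le_total (d / A) (dd r (Y x j)) with c3 | c3
      · refine (((((hP _ (mY x hx j)).2 c3 ((sd x hx j hi).trans c2) (h3 hv).1 (h3 hv).2).pull
          (hY.anY j x hx)).smul C0.le).add
          (((j1.uj.mono j2).pull (hY.anY j x hx)).smul κ0.le)).mono (le_of_eq ?_)
        ring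
      · refine ((((hP _ (mY x hx j)).1.pull (hY.anY j x hx)).smul C0.le).add
          (((j1.uj.mono (j3 c3)).pull (hY.anY j x hx)).smul κ0.le)).mono (le_of_eq ?_)
        rw [hκ]
        field_simp
        ring
    · exact u0 j
  refine (e1.add e2).mono ?_
  have V0 : 0 ≤ V := norm_nonneg _
  have b3 : ‖∑ j ∈ Tᶜ, -(2 * (((Y x j).im : ℝ) : ℂ) * (-Complex.I * deriv (fun x => Y x j) x))‖ ≤
      n * (2 * r * V) :=
    ((norm_sum_le _ _).trans (Finset.sum_le_card_nsmul _ _ (2 * r * V) fun j hj => by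
      have k1 : |(Y x j).im| ≤ r := le_of_lt (mY x hx j)
      have k2 := h2 j (Finset.mem_compl.1 hj)
      simp only [norm_neg, norm_mul, Complex.norm_ofNat, Complex.norm_real, Real.norm_eq_abs,
        Complex.norm_I, one_mul]
      gcongr)).trans (by rw [nsmul_eq_mul]; exact mul_le_mul_of_nonneg_right hc (by positivity))
  have b4 : -(n * (2 * V ^ 2)) ≤ ∑ j ∈ Tᶜ, -(2 * ‖deriv (fun x => Y x j) x‖ ^ 2) := by
    rw [Finset.sum_neg_distrib]
    refine neg_le_neg ((Finset.sum_le_card_nsmul _ _ (2 * V ^ 2) fun j hj => ?_).trans (by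
      rw [nsmul_eq_mul]; exact mul_le_mul_of_nonneg_right hc (by positivity)))
    have k2 := h2 j (Finset.mem_compl.1 hj)
    gcongr
  have b5 := pow_le_pow_left₀ (norm_nonneg _) b3 2
  simp only [Finset.sum_ite_eq', Finset.mem_univ, if_true, norm_neg]
  generalize ‖∑ j ∈ Tᶜ, -(2 * (((Y x j).im : ℝ) : ℂ) *
    (-Complex.I * deriv (fun x => Y x j) x))‖ ^ 2 = u at *
  have b6 : ∑ j ∈ Tᶜ, -(2 * ‖deriv (fun x => Y x j) x‖ ^ 2) ≤ 0 :=
    Finset.sum_nonpos fun j _ => neg_nonpos.2 (by positivity)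
  generalize ∑ j ∈ Tᶜ, -(2 * ‖deriv (fun x => Y x j) x‖ ^ 2) = w at *
  generalize S x = s at *
  have : (d ^ 2)⁻¹ * (2 * (2 * d - s) * -w + 2 * u) + -(C' * (V ^ 2 / d ^ 2)) =
      (2 * (2 * d - s) * -w + 2 * u - C' * V ^ 2) / d ^ 2 := by
    field_simp
    ring
  rw [this]
  refine div_nonpos_of_nonpos_of_nonneg ?_ (by positivity)
  have k1 : (2 * d - s) * -w ≤ 1 * (n * (2 * V ^ 2)) :=
    mul_le_mul (by linarith) (by linarith) (by linarith) one_pos.le
  simp only [C']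
  nlinarith

end Vale.Agent.P097O
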