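import Vale.Agent.P097O.Spec3
import Vale.Agent.P097K.TameA
import Vale.Agent.P097C.Det
import Vale.Agent.P097C.Rig

/-!
# P097O, rows 1713, 1714: tame configurations and rigidity under polynomial growth of `g`
-/

set_option linter.all false

open Filter Topology Set Metric

open Vale.Agent.P097C

namespace Vale.Agent.P097O

open Vale.Agent.P097K.TameA (eqs an_MM jen')

theorem gd3 : S_GD3 := by
  intro n _ r ρ c C θ h g Q Y s l τ η hS H ⟨C₁, L₀, c1, hg⟩ K hK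
  obtain ⟨k, hk, hr⟩ := P097C.rig n c hS.c0
  have a0 : 1 ≤ K * C₁ := by nlinarith
  have a1 : K ≤ K * C₁ := by nlinarith
  have a2 : C₁ ≤ K * C₁ := by nlinarith
  refine ⟨k * (K * C₁), max 1 L₀, by nlinarith, ?_⟩
  intro lam hlam Λ hΛ x hx hG L hL T hT hLev
  have l1 : 1 ≤ lam := (le_max_left _ _).trans hlam
  have l2 : L₀ ≤ lam := (le_max_right _ _).trans hlam
  have l3 : lam ≤ L := hΛ L hL
  have b1 : C₁ * L ≤ K * C₁ * (lam + L) := by nlinarith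
  have b2 : K * lam ≤ K * C₁ * (lam + L) := by nlinarith
  have b3 : K * (lam + L) ≤ K * C₁ * (lam + L) := by nlinarith
  have := (hr (K * C₁ * (lam + L)) (by nlinarith) _ _ _ _ _ _ (eqs H hx) (fun j =>
    ⟨(Real.exp_le_exp.2 (by linarith)).trans (hG.1 j).1,
      (hG.1 j).2.1.trans (Real.exp_le_exp.2 b2), (hG.1 j).2.2.trans (Real.exp_le_exp.2 b2)⟩)).1
    T hT (fun j hj => (hg L (by linarith) _ (H.maps hx j) (hLev j hj)).trans
      (Real.exp_le_exp.2 b1))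
    (fun t ht => by
      obtain ⟨j, hj⟩ : ∃ j, j ∉ T := by
        by_contra hn
        exact hT (Finset.eq_univ_iff_forall.2 fun j => by_contra fun hj => hn ⟨j, hj⟩)
      exact (Real.exp_le_exp.2 (by linarith)).trans (hG.2 L hL t ⟨j, fun e => hj ((ht j).1 e)⟩
        (fun i hi => hLev i ((ht i).1 (Finset.mem_filter.1 hi).2))))
  rw [mul_assoc]
  exact this

theorem tame3 : S_TAME3 := by
  intro n _ r ρ c C θ h g Q Y s l τ η hS H ⟨C₁, L₀, c1, hg⟩ ε m hε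
  have hJ := P097C.jen
  have hD := P097C.det_ne
  have hE := P097C.ent
  obtain ⟨B, hB⟩ := H.bnd
  obtain ⟨k, hk, hent⟩ := hE n c
  have hY : Cv r ρ Y := ⟨hS.r0, H.ρ0, H.anY, H.maps, H.re0⟩
  have h0 : (0 : ℂ) ∈ St ρ := by
    show |(0 : ℂ).im| < ρ
    simpa using H.ρ0
  have hre : ∀ j, (((Y 0 j).re : ℝ) : ℂ) = Y 0 j := fun j =>
    Complex.ext (by simp) (by simp [H.re0 j])
  have aY : ∀ x ∈ St ρ, AnalyticAt ℂ Y x := fun x hx =>
    analyticAt_pi_iff.2 fun j => H.anY j x hx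
  have as : ∀ j, AnalyticOnNhd ℂ (fun x => s j (Y x)) (St ρ) := fun j x hx =>
    (H.ans j _ (H.maps hx)).comp (aY x hx)
  have al' : ∀ j, AnalyticOnNhd ℂ (fun x => l j (Y x)) (St ρ) := fun j x hx =>
    (H.anl j _ (H.maps hx)).comp (aY x hx)
  have ag : ∀ j, AnalyticOnNhd ℂ (fun x => g (Y x j)) (St ρ) := fun j x hx =>
    AnalyticAt.comp (g := g) (f := fun x => Y x j) (hS.ang _ (H.maps hx j)) (H.anY j x hx)
  have aF : ∀ t, AnalyticOnNhd ℂ (fun x => FF c g s l t (Y x)) (St ρ) := fun t x hx =>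
    an_MM c t (s := fun j x => s j (Y x)) (l := fun j x => l j (Y x)) (g := fun j x => g (Y x j))
      (fun j => as j x hx) (fun j => al' j x hx) (fun j => ag j x hx)
  have s0 : ∀ j, s j (Y 0) ≠ 0 := fun j e => by
    have := (H.pos0 j).1.2
    rw [e] at this
    simp at this
  have F0 : ∀ t : ZMod n → Fin 3, (∃ j, t j ≠ 0) → FF c g s l t (Y 0) ≠ 0 := fun t ht =>
    hD n c _ _ _ _ _ _ H.odd hS.c0 (eqs H h0) (fun j =>
      ⟨(H.pos0 j).1, (H.pos0 j).2.1, (H.pos0 j).2.2, by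
        have := hS.posg (Y 0 j).re
        rwa [hre] at this⟩) t ht
  obtain ⟨A₁, hA₁⟩ := (Set.finite_range fun j => |Real.log ‖s j (Y 0)‖|).bddAbove
  obtain ⟨A₂, hA₂⟩ :=
    (Set.finite_range fun t : ZMod n → Fin 3 => |Real.log ‖FF c g s l t (Y 0)‖|).bddAbove
  obtain ⟨N₁, hN₁⟩ : ∃ N : ℝ, N = Fintype.card (ZMod n) := ⟨_, rfl⟩
  obtain ⟨N₂, hN₂⟩ : ∃ N : ℝ, N = Fintype.card (ZMod n → Fin 3) := ⟨_, rfl⟩
  have n1 : 0 ≤ N₁ := hN₁ ▸ Nat.cast_nonneg _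
  have n2 : 0 ≤ N₂ := hN₂ ▸ Nat.cast_nonneg _
  have n3 : (0 : ℝ) ≤ m * N₂ := mul_nonneg (Nat.cast_nonneg _) n2
  obtain ⟨e, he, hee⟩ : ∃ e : ℝ, 0 < e ∧ N₁ * e + m * (N₂ * e) ≤ ε := by
    have hp : 0 < N₁ + m * N₂ + 1 := by linarith
    refine ⟨ε / (N₁ + m * N₂ + 1), div_pos hε hp, ?_⟩
    have h1 : ε / (N₁ + m * N₂ + 1) * (N₁ + m * N₂ + 1) = ε := div_mul_cancel₀ _ hp.ne'
    have h2 := div_pos hε hp
    nlinarith
  obtain ⟨B₁, hB1, hB2⟩ : ∃ B₁ : ℝ, 2 ≤ B₁ ∧ B ≤ B₁ := ⟨max 2 B, le_max_left _ _,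
    le_max_right _ _⟩
  obtain ⟨K₀, hK1, hK2⟩ : ∃ K₀ : ℝ, 1 ≤ K₀ ∧ 4 / e ≤ K₀ := ⟨max 1 (4 / e), le_max_left _ _,
    le_max_right _ _⟩
  have kk1 : K₀ ≤ K₀ * k := by nlinarith
  have kk2 : K₀ * k * B₁ ≤ K₀ * k * (B₁ + 2 * C₁) := by nlinarith
  have kk3 : K₀ * B₁ ≤ K₀ * k * B₁ := by nlinarith
  have kk4 : B₁ ≤ K₀ * B₁ := by nlinarith
  refine ⟨K₀ * k * (B₁ + 2 * C₁), max (max L₀ (4 / e)) (max 1 (max (1 + A₁) (1 + A₂))),
    by linarith, ?_⟩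
  intro lam hlam Λ hΛ hL
  simp only [ge_iff_le, max_le_iff] at hlam
  obtain ⟨⟨l2, l3⟩, l4, l5, l6⟩ := hlam
  have m1 : lam ≤ B₁ * lam := by nlinarith
  have hs : ∀ j, ∃ W, Bar (St ρ) W ∧ W 0 ≤ e ∧
      ∀ x ∈ St ρ, (W x < 1 → Real.exp (-(K₀ * (B₁ * lam))) ≤ ‖s j (Y x)‖) ∧
        (‖s j (Y x)‖ ≤ Real.exp (B₁ * lam) → UJ W x 0) := fun j => by
    obtain ⟨W, w1, w2, w3⟩ := jen' hJ hY ∅ (as j) (s0 j) he le_rfl m1 hK1 hK2 l3
      (by linarith [hA₁ (Set.mem_range_self j)])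
    exact ⟨W, w1, w2, fun x hx => ⟨fun hw => (w3 x hx).1 hw fun i hi => by simp at hi,
      fun hb => (w3 x hx).2 fun _ => hb⟩⟩
  have hF : ∀ (L : ℝ) (t : ZMod n → Fin 3), ∃ W, Bar (St ρ) W ∧ W 0 ≤ e ∧ (lam ≤ L →
      ∀ x ∈ St ρ, (W x < 1 → (∃ j, t j ≠ 0) →
        Lev r (Y x) (Finset.univ.filter fun j => t j = 0) L →
          Real.exp (-(K₀ * k * (B₁ + 2 * C₁) * (lam + L))) ≤ ‖FF c g s l t (Y x)‖) ∧
        ((∀ j, ‖s j (Y x)‖ ≤ Real.exp (B₁ * lam) ∧ ‖l j (Y x)‖ ≤ Real.exp (B₁ * lam)) →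
          UJ W x 0)) := fun L t => by
    by_cases hc : lam ≤ L ∧ ∃ j, t j ≠ 0
    · have q0 : L ≤ C₁ * L := by nlinarith [hc.1]
      have q1 : lam ≤ B₁ * lam + 2 * C₁ * L := by linarith [hc.1]
      have q2 : B₁ * lam + 2 * C₁ * L ≤ k * (B₁ * lam + 2 * C₁ * L) := by nlinarith
      obtain ⟨W, w1, w2, w3⟩ := jen' hJ hY (Finset.univ.filter fun j => t j = 0) (aF t)
        (F0 t hc.2) he hc.1 (q1.trans q2) hK1 hK2 l3
        (by linarith [hA₂ (Set.mem_range_self t)])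
      refine ⟨W, w1, w2, fun _ x hx => ⟨fun hw _ hl => le_trans (Real.exp_le_exp.2 ?_)
        ((w3 x hx).1 hw hl), fun hb => (w3 x hx).2 fun hl => ?_⟩⟩
      · have q3 : B₁ * lam + 2 * C₁ * L ≤ (B₁ + 2 * C₁) * (lam + L) := by nlinarith [hc.1]
        have q4 := mul_le_mul_of_nonneg_left q3 (show 0 ≤ K₀ * k by linarith)
        have q5 : K₀ * (k * (B₁ * lam + 2 * C₁ * L)) = K₀ * k * (B₁ * lam + 2 * C₁ * L) := by ring
        have q6 : K₀ * k * (B₁ + 2 * C₁) * (lam + L) = K₀ * k * ((B₁ + 2 * C₁) * (lam + L)) := by ring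
        linarith
      · have q3 : Real.exp (B₁ * lam) ≤ Real.exp (B₁ * lam + 2 * C₁ * L) :=
          Real.exp_le_exp.2 (by linarith [hc.1])
        exact hent (B₁ * lam + 2 * C₁ * L) (by linarith) t _ _ _
          (fun j => ⟨(hb j).1.trans q3, (hb j).2.trans q3⟩)
          (fun j hj => (hg (2 * L) (by linarith [hc.1]) _ (H.maps hx j)
            (hl j (Finset.mem_filter.2 ⟨Finset.mem_univ _, hj⟩))).trans
            (Real.exp_le_exp.2 (by linarith)))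
    · exact ⟨fun _ => 0, ⟨continuousOn_const, fun _ _ => le_rfl⟩, he.le, fun h1 x _ =>
        ⟨fun _ h2 => absurd ⟨h1, h2⟩ hc, fun _ => UJ.const 0 x⟩⟩
  choose WS bS zS xS using hs
  choose WF bF zF xF using hF
  have p2 : ∀ x ∈ St ρ, ∀ j, 0 ≤ WS j x := fun x hx j => (bS j).2 x hx
  have p3 : ∀ x ∈ St ρ, ∀ L t, 0 ≤ WF L t x := fun x hx L t => (bF L t).2 x hx
  have s2 : ∀ x ∈ St ρ, 0 ≤ ∑ j, WS j x := fun x hx => Finset.sum_nonneg fun j _ => p2 x hx j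
  have s3 : ∀ x ∈ St ρ, ∀ L, 0 ≤ ∑ t, WF L t x := fun x hx L =>
    Finset.sum_nonneg fun t _ => p3 x hx L t
  have s4 : ∀ x ∈ St ρ, 0 ≤ ∑ L ∈ Λ, ∑ t, WF L t x := fun x hx =>
    Finset.sum_nonneg fun L _ => s3 x hx L
  refine ⟨fun x => ∑ j, WS j x + ∑ L ∈ Λ, ∑ t, WF L t x,
    ⟨(continuousOn_finset_sum _ fun j _ => (bS j).1).add
      (continuousOn_finset_sum _ fun L _ => continuousOn_finset_sum _ fun t _ => (bF L t).1),
      fun x hx => add_nonneg (s2 x hx) (s4 x hx)⟩, ?_, ?_⟩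
  · have z2 : ∑ j, WS j 0 ≤ N₁ * e := by
      have := Finset.sum_le_card_nsmul Finset.univ (fun j => WS j 0) e fun j _ => zS j
      rwa [nsmul_eq_mul, Finset.card_univ, ← hN₁] at this
    have z3 : ∀ L, ∑ t, WF L t 0 ≤ N₂ * e := fun L => by
      have := Finset.sum_le_card_nsmul Finset.univ (fun t => WF L t 0) e fun t _ => zF L t
      rwa [nsmul_eq_mul, Finset.card_univ, ← hN₂] at this
    have z4 : ∑ L ∈ Λ, ∑ t, WF L t 0 ≤ m * (N₂ * e) := by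
      have := Finset.sum_le_card_nsmul Λ (fun L => ∑ t, WF L t 0) _ fun L _ => z3 L
      rw [nsmul_eq_mul] at this
      exact this.trans (mul_le_mul_of_nonneg_right (Nat.cast_le.2 hΛ) (mul_nonneg n2 he.le))
    show ∑ j, WS j 0 + ∑ L ∈ Λ, ∑ t, WF L t 0 ≤ ε
    linarith
  · intro x hx hθ hw
    have hw' : ∑ j, WS j x + ∑ L ∈ Λ, ∑ t, WF L t x < 1 := hw
    have t2 : ∀ j, WS j x < 1 := fun j => by
      linarith [Finset.single_le_sum (fun j _ => p2 x hx j) (Finset.mem_univ j), s4 x hx]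
    have t3 : ∀ L ∈ Λ, ∀ t, WF L t x < 1 := fun L hl t => by
      linarith [Finset.single_le_sum (fun t _ => p3 x hx L t) (Finset.mem_univ t),
        Finset.single_le_sum (fun L _ => s3 x hx L) hl, s2 x hx]
    have u2 : ∀ j, ‖s j (Y x)‖ ≤ Real.exp (B₁ * lam) ∧ ‖l j (Y x)‖ ≤ Real.exp (B₁ * lam) :=
      fun j => by
        have := hB lam l4 _ (H.maps hx) hθ j
        have q : Real.exp (B * lam) ≤ Real.exp (B₁ * lam) :=
          Real.exp_le_exp.2 (by nlinarith)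
        exact ⟨this.1.trans q, this.2.trans q⟩
    have v1 : K₀ * (B₁ * lam) ≤ K₀ * k * (B₁ + 2 * C₁) * lam := by nlinarith
    have v2 : B₁ * lam ≤ K₀ * k * (B₁ + 2 * C₁) * lam := by nlinarith
    refine ⟨?_, fun j => ⟨le_trans (Real.exp_le_exp.2 (by linarith)) ((xS j x hx).1 (t2 j)),
      (u2 j).1.trans (Real.exp_le_exp.2 v2), (u2 j).2.trans (Real.exp_le_exp.2 v2)⟩,
      fun L hl t ht hlev => (xF L t (hL L hl) x hx).1 (t3 L hl t) ht hlev⟩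
    have j2 := UJ.sum Finset.univ (u := fun j x => WS j x) (z := x) fun j _ =>
      (xS j x hx).2 (u2 j).1
    have j3 := UJ.sum Λ (u := fun L x => ∑ t, WF L t x) (z := x) fun L hl =>
      UJ.sum Finset.univ (u := fun t x => WF L t x) (z := x) fun t _ =>
        (xF L t (hL L hl) x hx).2 u2
    exact (j2.add j3).mono (by simp)

end Vale.Agent.P097O
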