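import Vale.Agent.P097O.Spec3

/-!
# P097O: the final barrier from the one scale barrier
-/

set_option linter.all false

open Filter Topology
open Vale.Agent.P097C

namespace Vale.Agent.P097O

theorem wfin3 (hO3 : S_ONE3) : S_WFIN3 := by
  intro n _ r ρ g Y hO hY ε hε
  have hP := paste'
  classical
  have n0 : (0 : ℝ) < n := Nat.cast_pos.2 (NeZero.pos n)
  set m : ℝ := ((Fintype.card (Finset (ZMod n)) : ℕ) : ℝ)
  have m0 : 0 < m := Nat.cast_pos.2 Fintype.card_pos
  set e := ε / (n * m)
  have e0 : 0 < e := by positivity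
  choose N₀ H using hO3 n r ρ g Y hO hY _ (half_pos e0)
  refine ⟨|Real.log (e / 4)|, fun lam hl K hK => ?_⟩
  have l0 : 0 ≤ lam := (abs_nonneg _).trans hl
  have l1 : 2 * Real.exp (-lam) ≤ e / 2 := by
    have : Real.exp (-lam) ≤ Real.exp (Real.log (e / 4)) :=
      Real.exp_le_exp.2 (by linarith [neg_abs_le (Real.log (e / 4))])
    rw [Real.exp_log (by positivity)] at this
    linarith
  let L : ℕ → ℝ := fun s => Nat.rec lam (fun _ t => max (t + 1) (N₀ (K * (lam + 2 * t)))) s
  have Ls : ∀ s, L s + 1 ≤ L (s + 1) := fun s => le_max_left _ _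
  have Lm : Monotone L := monotone_nat_of_le_succ fun s => by linarith [Ls s]
  have L0 : ∀ s, lam ≤ L s := fun s => Lm (Nat.zero_le s)
  have G : ∀ (s : ℕ) (T : Finset (ZMod n)), ∃ W : ℂ → ℝ, Bar (St ρ) W ∧ W 0 ≤ e ∧ ∀ x ∈ St ρ,
      (T ≠ Finset.univ → Lev r (Y x) T (L s) →
        (∀ j ∉ T, dd r (Y x j) ≤ Real.exp (-L (s + 1))) → 1 ≤ W x) ∧
      (s < n → DrvAt r g Y K lam ((Finset.range n).image fun s => 2 * L s) x → UJ W x 0) := by
    intro s T
    by_cases hT : T = Finset.univ
    · exact ⟨fun _ => 0, ⟨continuousOn_const, fun _ _ => le_rfl⟩, e0.le, fun x _ =>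
        ⟨fun h => absurd hT h, fun _ _ => UJ.const 0 x⟩⟩
    have := L0 s
    obtain ⟨a, a1, a2, a3⟩ := H (K * (lam + 2 * L s)) (L (s + 1))
      (le_max_right _ _) T hT
    obtain ⟨W, w1, w2⟩ := hP n r ρ Y hY T (L s) a (by linarith) a1
    have h0 : (0 : ℂ) ∈ St ρ := by simpa [St] using hY.ρ0
    refine ⟨W, w1, ?_, fun x hx => ⟨fun _ h1 h2 => (w2 x hx).2.1 h1 ((a3 x hx).1 h2),
      fun hs h => (w2 x hx).2.2 fun h1 => (a3 x hx).2
        (h _ (Finset.mem_image_of_mem _ (Finset.mem_range.2 hs)) T hT h1)⟩⟩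
    have := Real.exp_le_exp.2 (neg_le_neg this)
    linarith [(w2 0 h0).1]
  choose W w1 w2 w3 using G
  refine ⟨(Finset.range n).image fun s => 2 * L s, L n,
    fun x => ∑ s ∈ Finset.range n, ∑ T, W s T x,
    Finset.card_image_le.trans (Finset.card_range n).le, fun t ht => ?_, L0 n,
    ⟨continuousOn_finset_sum _ fun s _ => continuousOn_finset_sum _ fun T _ => (w1 s T).1,
      fun x hx => Finset.sum_nonneg fun s _ => Finset.sum_nonneg fun T _ => (w1 s T).2 x hx⟩, ?_,
    fun x hx => ⟨fun ⟨j₀, hj⟩ => ?_, fun h => ?_⟩⟩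
  · obtain ⟨s, -, rfl⟩ := Finset.mem_image.1 ht
    linarith [L0 s]
  · refine (Finset.sum_le_card_nsmul _ _ (m * e) fun s _ =>
      (Finset.sum_le_card_nsmul _ _ e fun T _ => w2 s T).trans (by simp [m])).trans ?_
    simp only [Finset.card_range, nsmul_eq_mul, e]
    field_simp
    rfl
  · obtain ⟨s, hs, h⟩ : ∃ s < n, ∀ j, Real.exp (-L s) ≤ dd r (Y x j) ∨
        dd r (Y x j) ≤ Real.exp (-L (s + 1)) := by
      by_contra hn
      push Not at hn
      choose! f f1 f2 using hn
      have k : ∀ s < n, ∀ t < n, s < t → f s ≠ f t := fun s hs t ht hst he => by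
        have := Real.exp_le_exp.2 (neg_le_neg (Lm (Nat.succ_le_of_lt hst)))
        have := f2 s hs
        have := f1 t ht
        rw [← he] at this
        linarith
      have := Finset.card_le_card_of_injOn (s := Finset.range n) (t := Finset.univ.erase j₀) f
        (fun s hs => by
          have hs' := Finset.mem_range.1 hs
          have := Real.exp_le_exp.2 (neg_le_neg (Lm (Nat.succ_le_of_lt hs')))
          have := f2 s hs'
          simp only [Finset.coe_erase, Finset.coe_univ, Set.mem_diff, Set.mem_univ,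
            Set.mem_singleton_iff, true_and]
          intro he
          rw [he] at this
          linarith)
        fun s hs t ht he => by
          rcases lt_trichotomy s t with h | h | h
          · exact absurd he (k s (Finset.mem_range.1 hs) t (Finset.mem_range.1 ht) h)
          · exact h
          · exact absurd he.symm (k t (Finset.mem_range.1 ht) s (Finset.mem_range.1 hs) h)
      rw [Finset.card_erase_of_mem (Finset.mem_univ _), Finset.card_range, Finset.card_univ,
        ZMod.card] at this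
      have := NeZero.pos n
      omega
    have hT : ¬ ∀ j, Real.exp (-L s) ≤ dd r (Y x j) := fun hT => by
      have := Real.exp_le_exp.1 ((hT j₀).trans hj)
      linarith [Ls s, Lm (Nat.succ_le_of_lt hs)]
    let T := Finset.univ.filter fun j => Real.exp (-L s) ≤ dd r (Y x j)
    have k := (w3 s T x hx).1 (fun he => hT fun j => (Finset.mem_filter.1
      (he ▸ Finset.mem_univ j : j ∈ T)).2) (fun j hj => (Finset.mem_filter.1 hj).2)
      fun j hj => (h j).resolve_left fun h => hj (Finset.mem_filter.2 ⟨Finset.mem_univ _, h⟩)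
    exact k.trans ((Finset.single_le_sum (f := fun T => W s T x)
      (fun T _ => (w1 s T).2 x hx) (Finset.mem_univ T)).trans (Finset.single_le_sum
        (f := fun s => ∑ T, W s T x) (fun s _ => Finset.sum_nonneg fun T _ => (w1 s T).2 x hx)
        (Finset.mem_range.2 hs)))
  · exact (UJ.sum _ fun s hs => UJ.sum _ fun T _ =>
      (w3 s T x hx).2 (Finset.mem_range.1 hs) h).mono (by simp)

end Vale.Agent.P097O
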