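import Vale.Agent.P097O.Spec3
import Vale.Agent.P097O.Dpay

/-!
# P097O: the barrier for the angles (row 1711)
-/

set_option linter.all false

open Filter Topology Set Metric
open Vale.Agent.P097C

namespace Vale.Agent.P097O

theorem wr3 : S_WR3 := by
  intro n _ r ρ c C θ h g Q Y sd cv hT K δ ε lam₀ K1 δ0 ε0
  have n0 : (0 : ℝ) < n := by exact_mod_cast NeZero.pos n
  obtain ⟨lam, hl, V, bV, V0, hV⟩ := hT ((8 * K) ^ n) (ε * δ ^ 2 / (2 * n))
    (max lam₀ (max 1 (8 * (n : ℝ) ^ 3 / (ε * δ ^ 2)))) (one_le_pow₀ (by linarith)) (by positivity)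
  have l1 : 1 ≤ lam := ((le_max_left _ _).trans (le_max_right _ _)).trans hl
  have l2 : 8 * (n : ℝ) ^ 3 ≤ lam * (ε * δ ^ 2) :=
    (div_le_iff₀ (by positivity)).1 (((le_max_right _ _).trans (le_max_right _ _)).trans hl)
  obtain ⟨Λ, P, h1, h2, bP, P0, hP⟩ := dpay n r ρ g Y cv K lam K1 l1
  have p0 : 0 < (δ * lam) ^ 2 := by positivity
  have q0 : 0 < ((δ * lam) ^ 2)⁻¹ := by positivity
  have jθ : ∀ x ∈ St ρ, ∀ i, ∃ b, EJ (fun x => (θ (Y x i)).im ^ 2) x b
      (2 * ‖g (Y x i) * deriv (fun x => Y x i) x‖ ^ 2) := fun x hx i => by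
    have a1 := sd.anθ _ (cv.maps hx i)
    have a2 := cv.anY i x hx
    have d1 : deriv (fun x => θ (Y x i)) x = g (Y x i) * deriv (fun x => Y x i) x := by
      rw [← sd.dθ _ (cv.maps hx i)]
      exact (a1.differentiableAt.hasDerivAt.comp x a2.differentiableAt.hasDerivAt).deriv
    refine ⟨_, (EJ.im (F := fun x => θ (Y x i)) (a1.comp_of_eq a2 rfl)).sq.cast rfl ?_⟩
    rw [d1, norm_mul (-Complex.I), norm_neg, Complex.norm_I]
    ring
  have bY : ∀ i, Bar (St ρ) fun x => V (Y x i) := fun i =>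
    ⟨bV.1.comp (cv.anY i).continuousOn fun x hx => cv.maps hx i,
      fun x hx => bV.2 _ (cv.maps hx i)⟩
  have nn : ∀ x ∈ St ρ, 0 ≤ ∑ i, V (Y x i) + P x := fun x hx =>
    add_nonneg (Finset.sum_nonneg fun i _ => (bY i).2 x hx) (bP.2 x hx)
  refine ⟨lam, (le_max_left _ _).trans hl, Λ, fun x => ((δ * lam) ^ 2)⁻¹ *
    (∑ i, (θ (Y x i)).im ^ 2 + (∑ i, V (Y x i) + P x)), h1, h2, ⟨?_,
    fun x hx => mul_nonneg q0.le (add_nonneg (Finset.sum_nonneg fun i _ => sq_nonneg _) (nn x hx))⟩,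
    ?_, fun x hx => ⟨fun hW j => ?_, fun hD => ?_⟩⟩
  · exact continuousOn_const.mul (ContinuousOn.add (continuousOn_finset_sum _ fun i _ x hx =>
      (jθ x hx i).choose_spec.continuousAt.continuousWithinAt)
      ((continuousOn_finset_sum _ fun i _ => (bY i).1).add bP.1))
  · have e0 : ∀ i, Y 0 i = ((Y 0 i).re : ℝ) := fun i => Complex.ext rfl (by simp [cv.re0 i])
    have z1 : ∑ i, (θ (Y 0 i)).im ^ 2 = 0 := Finset.sum_eq_zero fun i _ => by
      rw [e0 i, sd.reθ]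
      ring
    have z2 : ∑ i, V (Y 0 i) ≤ n * (ε * δ ^ 2 / (2 * n) * lam ^ 2) := by
      have := Finset.sum_le_card_nsmul Finset.univ (fun i => V (Y 0 i)) _
        fun i _ => (e0 i).symm ▸ V0 (Y 0 i).re
      rwa [Finset.card_univ, ZMod.card, nsmul_eq_mul] at this
    have z3 : (n : ℝ) * (ε * δ ^ 2 / (2 * n) * lam ^ 2) = (δ * lam) ^ 2 * ε / 2 := by
      field_simp
    have z4 : Real.exp (-(4 * lam)) ≤ 1 := Real.exp_le_one_iff.2 (by linarith)
    have z5 : 4 * (n : ℝ) ^ 3 * Real.exp (-(4 * lam)) ≤ 4 * (n : ℝ) ^ 3 :=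
      mul_le_of_le_one_right (by positivity) z4
    have z6 : lam * (ε * δ ^ 2) ≤ lam * (ε * δ ^ 2) * lam :=
      le_mul_of_one_le_right (by positivity) l1
    show ((δ * lam) ^ 2)⁻¹ * _ ≤ ε
    rw [inv_mul_le_iff₀ p0, z1, zero_add]
    nlinarith
  · have h3 : (θ (Y x j)).im ^ 2 ≤ ∑ i, (θ (Y x i)).im ^ 2 :=
      Finset.single_le_sum (f := fun i => (θ (Y x i)).im ^ 2) (fun i _ => sq_nonneg _)
        (Finset.mem_univ j)
    have h4 := (inv_mul_lt_iff₀ p0).1 hW
    exact abs_le_of_sq_le_sq' (by linarith [nn x hx]) (by positivity) |> abs_le.2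
  · have J0 := UJ.sum Finset.univ fun i _ => (jθ x hx i).choose_spec.uj
    by_cases hc : ∀ i, Real.exp (-((8 * K) ^ n * lam)) ≤ dd r (Y x i)
    · have J := (J0.add ((UJ.sum Finset.univ fun i _ =>
        ((hV _ (cv.maps hx i)).2 (hc i)).pull (F := fun x => Y x i) (cv.anY i x hx)).add
          (hP x hx).1)).smul q0.le
      refine J.mono (mul_nonpos_of_nonneg_of_nonpos q0.le (le_of_eq ?_))
      rw [add_zero, ← Finset.sum_add_distrib]
      refine Finset.sum_eq_zero fun i _ => ?_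
      rw [norm_mul]
      ring
    · push Not at hc
      obtain ⟨i, hi⟩ := hc
      have J := (J0.add ((UJ.sum Finset.univ fun i _ =>
        (hV _ (cv.maps hx i)).1.pull (F := fun x => Y x i) (cv.anY i x hx)).add
          ((hP x hx).2 ⟨i, by rwa [mul_comm lam]⟩ hD))).smul q0.le
      refine J.mono (mul_nonpos_of_nonneg_of_nonpos q0.le (le_of_eq ?_))
      simp only [zero_mul, Finset.sum_const_zero, zero_add, add_neg_cancel]

end Vale.Agent.P097O
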