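import Vale.Agent.P097O.Defs
import Vale.Agent.P097K.TameA

/-!
# P097O: Jensen for the sines, at the scale of the angles
-/

set_option linter.all false

open Filter Topology Set Metric
open Vale.Agent.P097C

namespace Vale.Agent.P097O

theorem xb : S_XB := by
  intro n _ r ρ θ h g Y hY ⟨σ, B, hσ, hB⟩ ε hε
  have n0 : (0 : ℝ) < n := Nat.cast_pos.2 (NeZero.pos n)
  obtain ⟨A, hA⟩ := (Set.finite_range fun j => |Real.log ‖σ j 0‖|).bddAbove
  obtain ⟨e, he, hee⟩ : ∃ e : ℝ, 0 < e ∧ n * e = ε := ⟨ε / n, by positivity, by field_simp⟩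
  obtain ⟨B₁, hB1, hB2⟩ : ∃ B₁ : ℝ, 1 ≤ B₁ ∧ B ≤ B₁ := ⟨max 1 B, le_max_left _ _, le_max_right _ _⟩
  obtain ⟨K₀, hK1, hK2⟩ : ∃ K₀ : ℝ, 1 ≤ K₀ ∧ 4 / e ≤ K₀ := ⟨max 1 (4 / e), le_max_left _ _,
    le_max_right _ _⟩
  refine ⟨(K₀ + 1) * B₁, max (max 1 (4 / e)) (1 + A), by nlinarith, fun lam hlam => ?_⟩
  simp only [ge_iff_le, max_le_iff] at hlam
  obtain ⟨⟨l1, l3⟩, l5⟩ := hlam
  have m1 : lam ≤ B₁ * lam := by nlinarith
  have m2 : B * lam ≤ B₁ * lam := mul_le_mul_of_nonneg_right hB2 (by linarith)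
  have hs : ∀ j, ∃ W, Bar (St ρ) W ∧ W 0 ≤ e ∧
      ∀ x ∈ St ρ, (W x < 1 → Real.exp (-(K₀ * (B₁ * lam))) ≤ ‖σ j x‖) ∧
        (‖σ j x‖ ≤ Real.exp (B₁ * lam) → UJ W x 0) := fun j => by
    obtain ⟨W, w1, w2, w3⟩ := P097K.TameA.jen' jen hY ∅ (hσ j).1 (hσ j).2 he le_rfl m1 hK1 hK2 l3
      (by linarith [hA (Set.mem_range_self j)])
    exact ⟨W, w1, w2, fun x hx => ⟨fun hw => (w3 x hx).1 hw fun i hi => by simp at hi,
      fun hb => (w3 x hx).2 fun _ => hb⟩⟩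
  choose WS bS zS xS using hs
  refine ⟨fun x => ∑ j, WS j x, Bar.sum _ fun j _ => bS j, ?_, fun x hx hθ hw => ⟨?_, fun j => ?_⟩⟩
  · have := Finset.sum_le_card_nsmul Finset.univ (fun j => WS j 0) e fun j _ => zS j
    rw [nsmul_eq_mul, Finset.card_univ, ZMod.card] at this
    exact this.trans hee.le
  · exact (UJ.sum Finset.univ (u := fun j x => WS j x) (z := x) fun j _ =>
      (xS j x hx).2 ((hB lam l1 x hx hθ j).1.trans (Real.exp_le_exp.2 m2))).mono (by simp)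
  · have t2 : WS j x < 1 := lt_of_le_of_lt
      (Finset.single_le_sum (f := fun j => WS j x) (fun i _ => (bS i).2 x hx) (Finset.mem_univ j)) hw
    have h1 := (xS j x hx).1 t2
    have h2 := (hB lam l1 x hx hθ j).2
    have p : 0 ≤ ‖g (Y x j)‖ * ∑ i, ‖h (Y x i)‖ :=
      mul_nonneg (norm_nonneg _) (Finset.sum_nonneg fun i _ => norm_nonneg _)
    have h3 := ((mul_le_mul_of_nonneg_right h1 (norm_nonneg (deriv h (Y x j)))).trans h2).trans
      (mul_le_mul_of_nonneg_right (Real.exp_le_exp.2 m2) p)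
    have h4 := mul_le_mul_of_nonneg_left h3 (Real.exp_pos (K₀ * (B₁ * lam))).le
    rw [← mul_assoc, ← mul_assoc (Real.exp _), ← Real.exp_add, ← Real.exp_add, add_neg_cancel,
      Real.exp_zero, one_mul] at h4
    rw [show (K₀ + 1) * B₁ * lam = K₀ * (B₁ * lam) + B₁ * lam by ring]
    exact h4

end Vale.Agent.P097O
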