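import Vale.Agent.P097O.ACore3
import Vale.Agent.P097O.Alg3
import Vale.Agent.P097O.Xb
import Vale.Agent.P097O.Dpay
import Vale.Agent.P097O.Hc
import Vale.Agent.P097O.Off
import Vale.Agent.P097O.Wr3
import Vale.Agent.P097O.One3
import Vale.Agent.P097O.Wfin3
import Vale.Agent.P097O.Tame3
import Vale.Agent.P097O.Bda
import Vale.Agent.P097K.TopX
import Vale.Agent.P097C.Rig
import Vale.Agent.P097C.Ode

/-!
# P097O: the core without any bound on `Q`
-/

open Vale.Agent.P097C

namespace Vale.Agent.P097O

theorem acore : S_ACORE3 :=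
  acore3 (off xb dpay hc) wr3 (wfin3 one3) tame3 gd3 (P097K.topx rig ode)

theorem core3 : S_CORE3 := core3_of alg3 bda acore

end Vale.Agent.P097O
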