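import Vale.Agent.P097O.BdDefs

/-!
# P097O: convexity on parallel chords
-/

set_option linter.all false

open Filter Topology Set Metric MeasureTheory

namespace Vale.Agent.P097O

namespace ChaA

theorem cmp {u u' v v' : ℝ → ℝ} {a b : ℝ} (hu : ∀ x ∈ Icc a b, HasDerivAt u (u' x) x)
    (hv : ∀ x ∈ Icc a b, HasDerivAt v (v' x) x) (h0 : u a ≤ v a)
    (h : ∀ x ∈ Icc a b, u' x ≤ v' x) : ∀ x ∈ Icc a b, u x ≤ v x := fun x hx =>
  image_le_of_deriv_right_le_deriv_boundary
    (fun s hs => (hu s hs).continuousAt.continuousWithinAt)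
    (fun s hs => (hu s (Ico_subset_Icc_self hs)).hasDerivWithinAt) h0
    (fun s hs => (hv s hs).continuousAt.continuousWithinAt)
    (fun s hs => (hv s (Ico_subset_Icc_self hs)).hasDerivWithinAt)
    (fun s hs => h s (Ico_subset_Icc_self hs)) hx

theorem up {f f1 f2 : ℝ → ℝ} {p q k m : ℝ} (hpq : p ≤ q)
    (d1 : ∀ x ∈ Icc p q, HasDerivAt f (f1 x) x) (d2 : ∀ x ∈ Icc p q, HasDerivAt f1 (f2 x) x)
    (h0 : ∀ x ∈ Icc p q, 0 ≤ f x) (h2 : ∀ x ∈ Icc p q, 2 * k ^ 2 * f x ≤ f2 x) (hp : 0 ≤ f1 p)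
    (hm : m ≤ f p) (m0 : 0 ≤ m) : k ^ 2 * m * (q - p) ^ 2 ≤ f q := by
  have a1 := cmp (u := fun _ => (0 : ℝ)) (u' := fun _ => 0) (fun x _ => hasDerivAt_const x _) d2 hp
    (fun x hx => le_trans (mul_nonneg (by positivity) (h0 x hx)) (h2 x hx))
  have a2 := cmp (u := fun _ => m) (u' := fun _ => 0) (fun x _ => hasDerivAt_const x _) d1 hm a1
  have a3 := cmp (u := fun x => 2 * k ^ 2 * m * (x - p)) (u' := fun _ => 2 * k ^ 2 * m)
    (fun x _ => by simpa using ((hasDerivAt_id x).sub_const p).const_mul (2 * k ^ 2 * m)) d2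
    (by simpa using hp)
    (fun x hx => le_trans (mul_le_mul_of_nonneg_left (a2 x hx) (by positivity)) (h2 x hx))
  exact cmp (u := fun x => k ^ 2 * m * (x - p) ^ 2) (u' := fun x => 2 * k ^ 2 * m * (x - p))
    (fun x _ => ((((hasDerivAt_id x).sub_const p).pow 2).const_mul (k ^ 2 * m)).congr_deriv
      (by simp; ring)) d1 (by simpa using m0.trans hm) a3 q ⟨hpq, le_rfl⟩

theorem dn {f f1 f2 : ℝ → ℝ} {p q k m : ℝ} (hpq : p ≤ q)
    (d1 : ∀ x ∈ Icc p q, HasDerivAt f (f1 x) x) (d2 : ∀ x ∈ Icc p q, HasDerivAt f1 (f2 x) x)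
    (h0 : ∀ x ∈ Icc p q, 0 ≤ f x) (h2 : ∀ x ∈ Icc p q, 2 * k ^ 2 * f x ≤ f2 x) (hp : f1 q ≤ 0)
    (hm : m ≤ f q) (m0 : 0 ≤ m) : k ^ 2 * m * (q - p) ^ 2 ≤ f p := by
  have n : ∀ x ∈ Icc (-q) (-p), -x ∈ Icc p q := fun x hx => ⟨by linarith [hx.2], by linarith [hx.1]⟩
  have := up (f := fun x => f (-x)) (f1 := fun x => -f1 (-x)) (f2 := fun x => f2 (-x)) (k := k)
    (m := m) (neg_le_neg hpq)
    (fun x hx => ((d1 _ (n x hx)).comp x (hasDerivAt_neg x)).congr_deriv (by ring))
    (fun x hx => (((d2 _ (n x hx)).comp x (hasDerivAt_neg x)).neg).congr_deriv (by ring))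
    (fun x hx => h0 _ (n x hx)) (fun x hx => h2 _ (n x hx)) (by simpa using hp) (by simpa using hm)
    m0
  simp only [neg_neg] at this
  calc _ = k ^ 2 * m * (-p - -q) ^ 2 := by ring
    _ ≤ _ := this

theorem len {k b x : ℝ} (hk : 0 < k)
    (h : k ^ 2 * Real.exp (-b) ^ 2 * x ^ 2 ≤ Real.exp b ^ 2) : x ≤ Real.exp (2 * b) / k := by
  rw [le_div_iff₀ hk]
  have e : Real.exp (-b) * Real.exp b = 1 := by rw [← Real.exp_add]; simp
  have e2 : Real.exp (2 * b) = Real.exp b * Real.exp b := by rw [← Real.exp_add]; ring_nf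
  have h1 : k * Real.exp (-b) * x ≤ Real.exp b :=
    le_of_sq_le_sq (by nlinarith) (Real.exp_pos b).le
  have h2 := mul_le_mul_of_nonneg_right h1 (Real.exp_pos b).le
  calc x * k = k * x * (Real.exp (-b) * Real.exp b) := by rw [e]; ring
    _ = k * Real.exp (-b) * x * Real.exp b := by ring
    _ ≤ _ := by rw [e2]; exact h2

theorem vol {S : Set ℝ} {l : ℝ} (l0 : 0 ≤ l) (h : ∀ p ∈ S, ∀ q ∈ S, p ≤ q → q - p ≤ l) :
    volume S ≤ ENNReal.ofReal l := by
  refine (Real.volume_le_diam S).trans (Metric.ediam_le_of_forall_dist_le fun p hp q hq => ?_)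
  rw [Real.dist_eq, abs_le]
  rcases le_total p q with k | k
  · constructor <;> linarith [h p hp q hq k]
  · constructor <;> linarith [h q hq p hp k]

theorem line {G q : ℂ → ℂ} {z e y : ℂ} {R k b : ℝ} (hk : 0 < k)
    (hG : DifferentiableOn ℂ G (ball z R))
    (ode : ∀ w ∈ ball z R, deriv (deriv G) w = q w * G w)
    (hq : ∀ w ∈ ball z R, k ^ 2 ≤ (q w * e ^ 2).re) :
    volume {t : ℝ | y + t * e ∈ ball z R ∧ Real.exp (-b) ≤ ‖G (y + t * e)‖ ∧
      ‖G (y + t * e)‖ ≤ Real.exp b} ≤ ENNReal.ofReal (2 * (Real.exp (2 * b) / k)) := by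
  have hG' : DifferentiableOn ℂ (deriv G) (ball z R) := hG.deriv isOpen_ball
  have ln : ∀ F : ℂ → ℂ, DifferentiableOn ℂ F (ball z R) → ∀ t : ℝ, y + t * e ∈ ball z R →
      HasDerivAt (fun t : ℝ => F (y + t * e)) (deriv F (y + t * e) * e) t := fun F hF t ht => by
    have h := (hF.differentiableAt (isOpen_ball.mem_nhds ht)).hasDerivAt.comp (t : ℂ)
      (((hasDerivAt_id (t : ℂ)).mul_const e).const_add y)
    rw [one_mul] at h
    exact h.comp_ofReal
  let u : ℝ → ℂ := fun t => G (y + t * e)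
  let v : ℝ → ℂ := fun t => deriv G (y + t * e) * e
  let w : ℝ → ℂ := fun t => q (y + t * e) * e ^ 2 * G (y + t * e)
  let f : ℝ → ℝ := fun t => (u t).re * (u t).re + (u t).im * (u t).im
  let f1 : ℝ → ℝ := fun t => 2 * ((v t).re * (u t).re + (v t).im * (u t).im)
  let f2 : ℝ → ℝ := fun t => 2 * ((w t).re * (u t).re + (v t).re * (v t).re +
    ((w t).im * (u t).im + (v t).im * (v t).im))
  have fe : ∀ t, f t = ‖G (y + t * e)‖ ^ 2 := fun t => by
    rw [Complex.sq_norm, Complex.normSq_apply]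
  have D : ∀ t : ℝ, y + t * e ∈ ball z R → HasDerivAt f (f1 t) t ∧ HasDerivAt f1 (f2 t) t ∧
      2 * k ^ 2 * f t ≤ f2 t := fun t ht => by
    have d1 : HasDerivAt u (v t) t := ln G hG t ht
    have d2 : HasDerivAt v (w t) t :=
      ((ln _ hG' t ht).mul_const e).congr_deriv (by rw [ode _ ht]; simp only [w]; ring)
    have r1 : HasDerivAt (fun t => (u t).re) (v t).re t :=
      Complex.reCLM.hasFDerivAt.comp_hasDerivAt t d1
    have r2 : HasDerivAt (fun t => (v t).re) (w t).re t :=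
      Complex.reCLM.hasFDerivAt.comp_hasDerivAt t d2
    have i1 : HasDerivAt (fun t => (u t).im) (v t).im t :=
      Complex.imCLM.hasFDerivAt.comp_hasDerivAt t d1
    have i2 : HasDerivAt (fun t => (v t).im) (w t).im t :=
      Complex.imCLM.hasFDerivAt.comp_hasDerivAt t d2
    refine ⟨((r1.mul r1).add (i1.mul i1)).congr_deriv (by simp only [f1]; ring),
      ((r2.mul r1).add (i2.mul i1)).const_mul 2, ?_⟩
    have k1 := hq _ ht
    simp only [f, f2, w, u]
    generalize q (y + t * e) * e ^ 2 = κ at k1 ⊢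
    generalize v t = w₁
    generalize G (y + t * e) = w₀
    rw [Complex.mul_re, Complex.mul_im]
    have k2 := mul_le_mul_of_nonneg_right k1
      (add_nonneg (mul_self_nonneg w₀.re) (mul_self_nonneg w₀.im))
    nlinarith [mul_self_nonneg w₁.re, mul_self_nonneg w₁.im]
  have cv : ∀ p r : ℝ, y + p * e ∈ ball z R → y + r * e ∈ ball z R → ∀ x ∈ Icc p r,
      y + x * e ∈ ball z R := fun p r hp hr x hx => by
    have hc : Convex ℝ ((AffineMap.lineMap y (y + e) : ℝ →ᵃ[ℝ] ℂ) ⁻¹' ball z R) :=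
      (convex_ball z R).affine_preimage _
    have ee : ∀ s : ℝ, (AffineMap.lineMap y (y + e) : ℝ →ᵃ[ℝ] ℂ) s = y + s * e := fun s => by
      rw [AffineMap.lineMap_apply]; simp [add_comm]
    have := hc.ordConnected.out (x := p) (by rw [mem_preimage, ee]; exact hp) (y := r)
      (by rw [mem_preimage, ee]; exact hr) hx
    rwa [mem_preimage, ee] at this
  have f0 : ∀ t, 0 ≤ f t := fun t => by rw [fe]; positivity
  have l0 : 0 ≤ Real.exp (2 * b) / k := by positivity
  set S := {t : ℝ | y + t * e ∈ ball z R ∧ Real.exp (-b) ≤ ‖G (y + t * e)‖ ∧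
      ‖G (y + t * e)‖ ≤ Real.exp b} with hS
  have lo : ∀ t ∈ S, Real.exp (-b) ^ 2 ≤ f t := fun t ht => by
    rw [fe]; exact pow_le_pow_left₀ (Real.exp_pos _).le ht.2.1 2
  have hi : ∀ t ∈ S, f t ≤ Real.exp b ^ 2 := fun t ht => by
    rw [fe]; exact pow_le_pow_left₀ (norm_nonneg _) ht.2.2 2
  have s1 := vol (S := {t | t ∈ S ∧ 0 ≤ f1 t}) l0 fun p hp r hr hpr => len hk
    ((up hpr (fun x hx => (D x (cv p r hp.1.1 hr.1.1 x hx)).1)
      (fun x hx => (D x (cv p r hp.1.1 hr.1.1 x hx)).2.1) (fun x _ => f0 x)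
      (fun x hx => (D x (cv p r hp.1.1 hr.1.1 x hx)).2.2) hp.2 (lo p hp.1) (by positivity)).trans
      (hi r hr.1))
  have s2 := vol (S := {t | t ∈ S ∧ f1 t ≤ 0}) l0 fun p hp r hr hpr => len hk
    ((dn hpr (fun x hx => (D x (cv p r hp.1.1 hr.1.1 x hx)).1)
      (fun x hx => (D x (cv p r hp.1.1 hr.1.1 x hx)).2.1) (fun x _ => f0 x)
      (fun x hx => (D x (cv p r hp.1.1 hr.1.1 x hx)).2.2) hr.2 (lo r hr.1) (by positivity)).trans
      (hi p hp.1))
  calc volume S ≤ volume ({t | t ∈ S ∧ 0 ≤ f1 t} ∪ {t | t ∈ S ∧ f1 t ≤ 0}) :=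
        measure_mono fun t ht => (le_total 0 (f1 t)).imp (fun h => ⟨ht, h⟩) fun h => ⟨ht, h⟩
    _ ≤ _ := (measure_union_le _ _).trans ((add_le_add s1 s2).trans (by
        rw [← ENNReal.ofReal_add l0 l0, ← two_mul]))

end ChaA

open ChaA

theorem cha : S_CHA := by
  intro G q z e R k b he hk hR hG ode hq
  set E := {w | w ∈ ball z R ∧ Real.exp (-b) ≤ ‖G w‖ ∧ ‖G w‖ ≤ Real.exp b} with hE
  have hc : ContinuousOn (fun w => ‖G w‖) (ball z R) := hG.continuousOn.norm
  have mE : MeasurableSet E := by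
    have o1 := hc.isOpen_inter_preimage isOpen_ball (isOpen_Iio (a := Real.exp (-b)))
    have o2 := hc.isOpen_inter_preimage isOpen_ball (isOpen_Ioi (a := Real.exp b))
    have : E = (ball z R \ (ball z R ∩ (fun w => ‖G w‖) ⁻¹' Iio (Real.exp (-b)))) \
        (ball z R ∩ (fun w => ‖G w‖) ⁻¹' Ioi (Real.exp b)) := by
      ext w
      simp only [hE, mem_setOf_eq, mem_diff, mem_inter_iff, mem_preimage, mem_Iio, mem_Ioi, not_and,
        not_lt]
      tauto
    rw [this]
    exact (measurableSet_ball.diff o1.measurableSet).diff o2.measurableSet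
  let a : Circle := ⟨e, by simpa [Submonoid.unitSphere] using he⟩
  have mp : MeasurePreserving (fun x : ℝ × ℝ => z + rotation a (Complex.measurableEquivRealProd.symm x))
      (volume.prod volume) volume :=
    ((measurePreserving_add_left volume z).comp (rotation a).measurePreserving).comp
      Complex.volume_preserving_equiv_real_prod.symm
  have ev : ∀ t τ : ℝ, z + rotation a (Complex.measurableEquivRealProd.symm (t, τ)) =
      z + τ * Complex.I * e + t * e := fun t τ => by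
    have : Complex.measurableEquivRealProd.symm (t, τ) = t + τ * Complex.I := by
      apply Complex.ext <;> simp
    rw [this, rotation_apply]
    show z + e * _ = _
    ring
  rw [← mp.measure_preimage mE.nullMeasurableSet, Measure.prod_apply_symm (mp.measurable mE)]
  calc _ ≤ ∫⁻ τ, (Icc (-R) R).indicator
        (fun _ => ENNReal.ofReal (2 * (Real.exp (2 * b) / k))) τ := lintegral_mono fun τ => by
        by_cases hτ : τ ∈ Icc (-R) R
        · rw [indicator_of_mem hτ]
          refine le_trans (le_of_eq ?_) (line (y := z + τ * Complex.I * e) (b := b) hk hG ode hq)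
          congr 1
          ext t
          simp only [mem_preimage, ev, hE, mem_setOf_eq]
        · rw [indicator_of_notMem hτ]
          refine le_of_eq (measure_mono_null (t := ∅) (fun t ht => hτ ?_) measure_empty)
          simp only [mem_preimage, ev, hE, mem_setOf_eq] at ht
          have h1 := mem_ball_iff_norm.1 ht.1
          rw [show z + τ * Complex.I * e + t * e - z = (t + τ * Complex.I) * e by ring, norm_mul,
            he, mul_one] at h1
          have h2 := (Complex.abs_im_le_norm (t + τ * Complex.I)).trans h1.le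
          simpa [abs_le] using h2
    _ = _ := by
        rw [lintegral_indicator_const measurableSet_Icc, Real.volume_Icc,
          ← ENNReal.ofReal_mul (by positivity)]
        congr 1
        ring

end Vale.Agent.P097O
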