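import Vale.Agent.P097O.BdBox
import Vale.Agent.P097F.Di.Defs

/-!
# P097O: at a high Galilean peak most windows contain a point where `Q` is large
-/

set_option linter.all false

open Filter Topology Set Metric MeasureTheory
open Vale.Agent.P097F Vale.Agent.P097F.Di Vale.Agent.P097W Vale.Agent.P097W.GoodH

namespace Vale.Agent.P097O

/-- off a set of measure `ε` the window is bounded and contains a point where `Q` is large -/
def ACTD (r u₀ : ℝ) (η : ℝ → ℝ) (g Q : ℂ → ℂ) (a : ℝ → ℝ) : Prop := ∀ ε : ℝ, 0 < ε →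
  ∃ c₀ R B A₁ : ℝ, 0 < c₀ ∧ 1 ≤ R ∧ ∀ u, Pk η u₀ a u → A₁ * u ≤ η u → 2 * R * η u ≤ r ∧
    ∃ Bad : Set ℝ, volume (Bad ∩ Ico 0 1) ≤ ENNReal.ofReal ε ∧ ∀ s ∉ Bad,
      Box r g Q s u (η u) (2 * R) B ∧ APt r g Q s u (η u) c₀ R ∧ ∀ y : ℂ, |y.re - s| ≤ R * η u →
        η u / R ≤ r - y.im → r - y.im ≤ R * η u → ¬ c₀ ≤ ‖g y‖ * u

variable {r c κ u₀ : ℝ} {p : ℕ} {θ H Q : ℂ → ℂ} {Y₀ : ℂ × ℂ → ℂ} {η : ℝ → ℝ} {Y : ℝ → ℂ × ℂ → ℂ}

/-- high peaks are close to the edge -/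
theorem small (D : Dat r c κ u₀ p θ H Q Y₀ η Y) {δ : ℝ} (δ0 : 0 < δ) :
    ∃ Λ : ℝ, ∀ u ∈ Ioo 0 u₀, Λ * u ≤ η u → 0 < η u → η u ≤ δ := by
  obtain ⟨C, hC⟩ := D.pw
  obtain ⟨q, rfl⟩ : ∃ q, p = q + 1 := ⟨p - 1, by have := p1 D; omega⟩
  refine ⟨C / δ ^ (q + 1), fun u m hu dp => ?_⟩
  have hp := hC u m
  generalize η u = d at *
  refine le_of_pow_le_pow_left₀ (Nat.succ_ne_zero q) δ0.le (le_of_mul_le_mul_right ?_ dp)
  rw [div_mul_eq_mul_div, div_le_iff₀ (pow_pos δ0 _)] at hu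
  rw [← pow_succ]
  show d ^ (q + 1 + 1) ≤ δ ^ (q + 1) * d
  linarith

theorem actd (hA : S_APT) (D : Dat r c κ u₀ p θ H Q Y₀ η Y) {m N : ℕ} {a : ℝ → ℝ}
    (W : Wd r u₀ η (deriv θ) Q m N 16 a) (G : GAL r u₀ η (deriv θ) a) :
    ACTD r u₀ η (deriv θ) Q a := by
  classical
  intro ε ε0
  have r0 := D.cur.rpos
  have E := W.env
  obtain ⟨M, M1, hM⟩ := good1 r _ Q {a} r0 (fun b hb => hb ▸ E.one) 16 W.mom (ε / 2) (by norm_num)
    (by positivity)
  obtain ⟨c₀, R, A₁, c0, R1, hA⟩ := hA r c κ u₀ p θ H Q Y₀ η Y D M 256 M1 (by norm_num)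
  obtain ⟨B, hX⟩ := box 16 M (2 * R) (2 * (2 * R) ^ m + 4 * R) (by norm_num) M1 (by linarith)
  obtain ⟨A₂, hS⟩ := small D (show 0 < r / (2 * R) by positivity)
  set w : ℝ := R * (2 * R) * r + 2 with hw
  set V₀ : ℝ := (2 * R + 1) * (2 * R + 2) * (2 * R) / 24 with hV
  have w0 : 0 < w := by positivity
  have V0 : 0 < V₀ := by positivity
  obtain ⟨A₃, hG⟩ := G (c₀ / R) (ε / (96 * w * V₀)) (2 * R) (by positivity) (by positivity)
    (by linarith)
  refine ⟨c₀, R, B, max A₁ (max A₂ A₃), c0, R1, fun u pk hu => ?_⟩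
  obtain ⟨um, dp, pa⟩ := id pk
  have v0 := um.1
  have k1 : A₁ * u ≤ η u := (mul_le_mul_of_nonneg_right (le_max_left _ _) v0.le).trans hu
  have k2 : A₂ * u ≤ η u :=
    (mul_le_mul_of_nonneg_right (le_max_of_le_right (le_max_left _ _)) v0.le).trans hu
  have k3 : A₃ * u ≤ η u :=
    (mul_le_mul_of_nonneg_right (le_max_of_le_right (le_max_right _ _)) v0.le).trans hu
  have dR : 2 * R * η u ≤ r := (le_div_iff₀' (by positivity)).1 (hS u um k2 dp)
  have hA := hA u um k1 dp a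
  have hG := hG u pk k3
  obtain ⟨B₁, -, -, o3, o4⟩ := hM a rfl (η u) dp
  generalize η u = d at *
  have ap : ∀ t, 0 < a t := fun t => one_pos.trans_le (E.one t)
  have hI : ∀ k : ℕ, ∃ I : Finset ℝ, I.card * (1 / 2 : ℝ) ^ k ≤
      ε / (96 * w * V₀) * (V₀ * (1 / vv (r / d * (1 / 2) ^ k))) ∧
      (d ≤ 2 * R * (r * (1 / 2) ^ k) → r * (1 / 2) ^ k ≤ 2 * R * d →
        ∀ y ∈ Big r (deriv θ) (c₀ / R * (d / u)), P097K.Lv r k y →
          ∃ x ∈ I, ∃ n : ℤ, |y.re - n - x| ≤ (1 / 2) ^ k) := fun k => by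
    have q0 : 0 < r / d * (1 / 2 : ℝ) ^ k := by positivity
    have v1 : 0 < vv (r / d * (1 / 2) ^ k) := lt_of_lt_of_le (by norm_num) (vv_ge q0)
    by_cases h : d ≤ 2 * R * (r * (1 / 2) ^ k) ∧ r * (1 / 2) ^ k ≤ 2 * R * d
    · obtain ⟨I, i1, i2⟩ := hG k h.1 h.2
      refine ⟨I, i1.trans (le_mul_of_one_le_right (by positivity) ?_), fun _ _ => i2⟩
      rw [mul_one_div, one_le_div v1]
      have q1 : r / d * (1 / 2 : ℝ) ^ k ≤ 2 * R := by
        rw [div_mul_eq_mul_div, div_le_iff₀ dp]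
        exact h.2
      have q2 : 1 ≤ 2 * R * (r / d * (1 / 2 : ℝ) ^ k) := by
        rw [div_mul_eq_mul_div, ← mul_div_assoc, one_le_div dp]
        exact h.1
      generalize r / d * (1 / 2 : ℝ) ^ k = q at *
      rw [vv, hV, div_le_div_iff₀ (by positivity) (by positivity)]
      have q3 : (q + 1) * (q + 2) ≤ (2 * R + 1) * (2 * R + 2) := by gcongr
      nlinarith [mul_le_mul_of_nonneg_left q2 (show 0 ≤ (2 * R + 1) * (2 * R + 2) by positivity)]
    · exact ⟨∅, by rw [Finset.card_empty, Nat.cast_zero, zero_mul]; positivity,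
        fun a b => absurd ⟨a, b⟩ h⟩
  choose I i1 i2 using hI
  have o5 : volume ((⋃ k : ℕ, ⋃ x ∈ I k, ⋃ n : ℤ, ball (x + n) (w * (1 / 2) ^ k)) ∩ Ico (0 : ℝ) 1) ≤
      ENNReal.ofReal (ε / 2) := by
    refine GoodH.cov (f := fun k => ε / 48 * (1 / vv (r / d * (1 / 2) ^ k))) (fun k => ?_)
      (fun k => (GoodH.fin (I k) _).trans (ENNReal.ofReal_le_ofReal ?_)) fun n => ?_
    · have : 0 < vv (r / d * (1 / 2) ^ k) :=
        lt_of_lt_of_le (by norm_num) (vv_ge (by positivity))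
      positivity
    · refine le_trans (le_of_eq ?_) ((mul_le_mul_of_nonneg_left (i1 k)
        (show 0 ≤ 2 * w by positivity)).trans (le_of_eq ?_))
      · ring
      · field_simp
        ring
    · rw [← Finset.mul_sum]
      have := mul_le_mul_of_nonneg_left (vv_sum (show 0 < r / d by positivity) n)
        (show 0 ≤ ε / 48 by positivity)
      linarith
  refine ⟨dR, B₁ ∪ ⋃ k : ℕ, ⋃ x ∈ I k, ⋃ n : ℤ, ball (x + n) (w * (1 / 2) ^ k), ?_, fun s hs => ?_⟩
  · rw [union_inter_distrib_right]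
    refine (measure_union_le _ _).trans ((add_le_add o3 o5).trans (le_of_eq ?_))
    rw [← ENNReal.ofReal_add (by positivity) (by positivity), add_halves]
  have gd := o4 s fun h => hs (Or.inl h)
  refine ⟨hX r s u d _ Q a v0 dp dR (fun t t1 t2 => ⟨ap t, ?_⟩) gd, ?_⟩
  · have t0 : 0 < t := lt_trans (by positivity) t1
    have p1 : 0 ≤ 2 * (2 * R) ^ m * d := by positivity
    have p2 : 0 ≤ 4 * R * d := by positivity
    rcases le_total d t with h | h
    · have e1 := E.dec.mono E.one (show 1 ≤ N by linarith [W.N8]) t d dp h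
      rw [pow_one, pow_one] at e1
      have e2 : a t * u * d ≤ 4 * R * d * d := by
        have e3 := mul_le_mul_of_nonneg_right e1 v0.le
        have e4 := mul_le_mul pa t2.le t0.le (by positivity)
        nlinarith
      linarith [le_of_mul_le_mul_right e2 dp]
    · have e1 := E.grow d t t0 h
      rw [div_lt_iff₀ (by positivity)] at t1
      have e2 : d ^ m ≤ (2 * R) ^ m * t ^ m := by
        rw [← mul_pow]
        exact pow_le_pow_left₀ dp.le (by linarith) m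
      have e3 : a t * u * t ^ m ≤ 2 * (2 * R) ^ m * d * t ^ m := by
        have e4 := mul_le_mul_of_nonneg_right e1 v0.le
        have e5 := mul_le_mul pa e2 (by positivity) (by positivity)
        nlinarith
      linarith [le_of_mul_le_mul_right e3 (pow_pos t0 m)]
  refine ⟨hA s (fun t h => ⟨ap t, by
    have e1 := E.dec.mono E.one W.N8 t d dp h
    have e2 : (a t * u) ^ 8 * d ≤ 256 * (d ^ 7 * t) * d := by
      have e3 := mul_le_mul_of_nonneg_right e1 (pow_pos v0 8).le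
      have e4 := mul_le_mul_of_nonneg_right (pow_le_pow_left₀ (mul_pos (ap d) v0).le pa 8)
        (dp.le.trans h)
      rw [mul_pow] at e4 ⊢
      nlinarith
    exact le_of_mul_le_mul_right e2 dp⟩) gd, fun y y1 y2 y3 y5 => hs (Or.inr ?_)⟩
  have t0 : 0 < r - y.im := lt_of_lt_of_le (by positivity) y2
  have i0 : 0 < y.im := by nlinarith [mul_pos (show 0 < R by linarith) dp]
  have ym : |y.im| < r := by rw [abs_of_pos i0]; linarith
  obtain ⟨k, l1, l2⟩ := P097K.exists_lv r0 (y := y) ym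
  have l3 := l1
  have l4 := l2
  rw [abs_of_pos i0] at l3 l4
  rw [div_le_iff₀ (by linarith)] at y2
  have q0 : 0 < r * (1 / 2 : ℝ) ^ k := by positivity
  have d1 : d ≤ 2 * R * (r * (1 / 2) ^ k) := by nlinarith
  obtain ⟨x, hx, n, hn⟩ := i2 k d1 (by rw [pow_succ] at l3; linarith) y ⟨ym, by
    rw [abs_of_pos i0, div_mul_div_comm, div_le_iff₀ (by positivity)]
    nlinarith [mul_le_mul y5 y2 dp.le (by positivity)]⟩ ⟨l1, l2⟩
  refine mem_iUnion.2 ⟨k, mem_iUnion₂.2 ⟨x, hx, mem_iUnion.2 ⟨n, ?_⟩⟩⟩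
  rw [mem_ball, Real.dist_eq]
  have e1 := abs_le.1 hn
  have e2 := abs_le.1 y1
  have e3 := mul_le_mul_of_nonneg_left d1 (show 0 ≤ R by linarith)
  have e4 : 0 < (1 / 2 : ℝ) ^ k := by positivity
  rw [abs_lt, hw]
  constructor <;> nlinarith

end Vale.Agent.P097O
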