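import Vale.Agent.P097O.BdDefs

/-!
# P097O: a good window has an active point
-/

set_option linter.all false

open Filter Topology Set Metric MeasureTheory
open Vale.Agent.P097M (GQ Gs)

namespace Vale.Agent.P097O

namespace BdApt

/-- the active point is not deep -/
lemma depth {G A a u d t k M D w : ℝ} (u0 : 0 < u) (d0 : 0 < d) (k0 : 0 < k) (a0 : 0 < a)
    (G0 : 0 ≤ G) (M1 : 1 ≤ M) (hA : A * u = k * d) (h1 : A ^ 4 * t ≤ G ^ 2 * d) (td : d ≤ t)
    (h2 : (a * u) ^ 8 ≤ D * (d ^ 7 * t)) (w0 : 0 ≤ w) (w1 : w ≤ t)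
    (h3 : (G / a ^ 2) ^ 16 ≤ M * (max (t / d) (d / t) * (1 + w / t)) ^ 2) :
    t ≤ 4 * M * D ^ 4 / k ^ 32 * d := by
  have t0 : 0 < t := d0.trans_le td
  obtain ⟨x, rfl⟩ : ∃ x, t = x * d := ⟨t / d, by field_simp⟩
  have x1 : 1 ≤ x := by nlinarith
  have x0 : 0 < x := by linarith
  have e1 : max (x * d / d) (d / (x * d)) = x := by
    rw [mul_div_cancel_right₀ _ d0.ne']
    exact max_eq_left (((div_le_one t0).2 td).trans x1)
  have e2 : 1 + w / (x * d) ≤ 2 := by linarith [(div_le_one t0).2 w1]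
  rw [e1, div_pow, div_le_iff₀ (by positivity)] at h3
  have f1 : G ^ 16 ≤ M * (x * 2) ^ 2 * (a ^ 2) ^ 16 := h3.trans (by gcongr)
  have f2 : A ^ 4 * x ≤ G ^ 2 := le_of_mul_le_mul_right (by linarith) d0
  have f3 : (A ^ 4 * x) ^ 8 ≤ (G ^ 2) ^ 8 := by gcongr
  have f4 : ((a * u) ^ 8) ^ 4 ≤ (D * (d ^ 7 * (x * d))) ^ 4 := by gcongr
  have f5 : (k * d) ^ 32 * x ^ 8 ≤ 4 * M * D ^ 4 * d ^ 32 * x ^ 6 :=
    calc _ = (A ^ 4 * x) ^ 8 * u ^ 32 := by rw [← hA]; ring
      _ ≤ M * (x * 2) ^ 2 * (a ^ 2) ^ 16 * u ^ 32 := by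
        gcongr
        exact f3.trans (by rw [← pow_mul]; exact f1)
      _ = 4 * M * x ^ 2 * ((a * u) ^ 8) ^ 4 := by ring
      _ ≤ 4 * M * x ^ 2 * (D * (d ^ 7 * (x * d))) ^ 4 := by gcongr
      _ = _ := by ring
  have f6 : k ^ 32 * x ^ 2 ≤ 4 * M * D ^ 4 :=
    le_of_mul_le_mul_right (a := d ^ 32 * x ^ 6) (by linarith [f5, mul_pow k d 32]) (by positivity)
  gcongr
  rw [le_div_iff₀ (by positivity)]
  nlinarith [mul_le_mul_of_nonneg_left (show x ≤ x ^ 2 by nlinarith) (pow_pos k0 32).le]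

end BdApt

theorem apt : S_APT := by
  intro r c κ u₀ p θ H Q Y₀ η Y Dt M D M1 D1
  obtain ⟨c₁, c1, act⟩ := Dt.fam.act Dt.cur one_pos le_rfl
  set k := c₁ / 32 with hk
  have k0 : 0 < k := by positivity
  set R := 32 + 4 * M * D ^ 4 / k ^ 32 with hR
  have p0 : 0 ≤ 4 * M * D ^ 4 / k ^ 32 := by positivity
  have R1 : 32 ≤ R := by linarith
  have R0 : 0 < R := by linarith
  refine ⟨min (k / R) ((k / R) ^ 2), R, 1 / k, by positivity, by linarith,
    fun u m hA d0 a s ha hG => ?_⟩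
  set d := η u with hd
  have u0 := m.1
  have d1 : d ≤ r := by linarith [Dt.fam.low u m, Dt.fam.sol.pos]
  set A := k * d / u with hA'
  have Au : A * u = k * d := by rw [hA']; field_simp
  have A1 : 1 ≤ A := by
    rw [hA', le_div_iff₀ u0]
    rw [one_div, inv_mul_le_iff₀ k0] at hA
    linarith
  have nk : ¬ P097S.Kc r θ Q s 1 (d / 32) A := fun K => by
    have := act u m s (d / 32) A (by positivity) (by linarith) A1 K
      (by rw [mul_comm, Au, hk]; exact le_of_eq (by ring))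
    linarith
  simp only [P097S.Kc, not_forall] at nk
  obtain ⟨y, ⟨y1, y2, y3⟩, hy⟩ := nk
  set t := r - y.im with ht
  have t0 : 0 < t := by linarith
  rw [one_mul] at y3
  have g0 := norm_nonneg (deriv θ y)
  have q0 := norm_nonneg (Q y)
  have alt : A ^ 4 * t < (‖deriv θ y‖ * t) ^ 4 * (d / 32) ∨
      A ^ 4 * t < (‖Q y‖ * t ^ 2) ^ 2 * (d / 32) := by
    by_contra hc
    push Not at hc
    exact hy hc
  have tR : t ≤ R * d := by
    rcases le_total t d with td | td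
    · nlinarith
    have G0 : 0 ≤ Gs (deriv θ) Q y * t ^ 2 := by unfold Gs; positivity
    have h1 : A ^ 4 * t ≤ (Gs (deriv θ) Q y * t ^ 2) ^ 2 * d := by
      have e1 : (‖deriv θ y‖ * t) ^ 4 ≤ (Gs (deriv θ) Q y * t ^ 2) ^ 2 := by
        rw [show (‖deriv θ y‖ * t) ^ 4 = (‖deriv θ y‖ ^ 2 * t ^ 2) ^ 2 by ring]
        unfold Gs
        gcongr
        linarith
      have e2 : (‖Q y‖ * t ^ 2) ^ 2 ≤ (Gs (deriv θ) Q y * t ^ 2) ^ 2 := by
        unfold Gs
        gcongr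
        linarith [sq_nonneg ‖deriv θ y‖]
      rcases alt with h | h
      · exact h.le.trans (by gcongr; linarith)
      · exact h.le.trans (by gcongr; linarith)
    have := BdApt.depth u0 d0 k0 (ha t td).1 G0 M1 Au h1 td (ha t td).2 (abs_nonneg _) y3.le
      (hG y y1.le (by linarith))
    nlinarith
  refine ⟨y, y3.le.trans tR, le_trans (by gcongr) y2.le, tR, ?_⟩
  have A0 : 0 ≤ A := by linarith
  rcases alt with h | h
  · refine Or.inl ((min_le_left _ _).trans ?_)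
    have h1 : A ^ 4 ≤ (‖deriv θ y‖ * t) ^ 4 :=
      le_of_mul_le_mul_right (h.le.trans (by gcongr)) t0
    have h2 : A ≤ ‖deriv θ y‖ * (R * d) :=
      (pow_le_pow_iff_left₀ A0 (by positivity) (by norm_num)).1 h1 |>.trans (by gcongr)
    rw [div_le_iff₀ R0]
    refine le_of_mul_le_mul_right ?_ d0
    nlinarith [mul_le_mul_of_nonneg_right h2 u0.le]
  · refine Or.inr ((min_le_right _ _).trans ?_)
    have h1 : (A ^ 2) ^ 2 ≤ (‖Q y‖ * t ^ 2) ^ 2 := by
      rw [← pow_mul]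
      exact le_of_mul_le_mul_right (h.le.trans (by gcongr)) t0
    have h2 : A ^ 2 ≤ ‖Q y‖ * (R * d) ^ 2 :=
      (pow_le_pow_iff_left₀ (by positivity) (by positivity) (by norm_num)).1 h1 |>.trans (by gcongr)
    rw [div_pow, div_le_iff₀ (by positivity)]
    refine le_of_mul_le_mul_right (a := d ^ 2) ?_ (by positivity)
    calc k ^ 2 * d ^ 2 = A ^ 2 * u ^ 2 := by rw [← mul_pow, ← Au, mul_pow]
      _ ≤ ‖Q y‖ * (R * d) ^ 2 * u ^ 2 := by gcongr
      _ = _ := by ring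

end Vale.Agent.P097O
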