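import Vale.Agent.P097O.BdDefs

/-!
# P097O: bounds in a good window (row BOX)
-/

open Filter Topology Set Metric
open Vale.Agent.P097M (GQ Gs)

namespace Vale.Agent.P097O

theorem box : S_BOX := by
  intro j M R D hj hM hR
  refine ⟨M * (R * (1 + R ^ 2)) ^ 2 * (D * R) ^ 2 + 1,
    fun r s u d g Q a u0 d0 hr ha hG y h1 h2 h3 => ?_⟩
  have R0 : 0 < R := by linarith
  have t0 : 0 < r - y.im := lt_trans (by positivity) h2
  obtain ⟨a0, a1⟩ := ha _ h2 h3
  have G := hG y (by linarith) (by linarith)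
  set t := r - y.im
  set Z := M * (R * (1 + R ^ 2)) ^ 2 with hZ
  have k1 : d ≤ R * t := by rw [div_lt_iff₀' R0] at h2; exact h2.le
  have m1 : max (t / d) (d / t) ≤ R :=
    max_le ((div_le_iff₀ d0).2 h3.le) ((div_le_iff₀ t0).2 k1)
  have m2 : |y.re - s| / t ≤ R ^ 2 := by
    rw [div_le_iff₀ t0]
    nlinarith [mul_le_mul_of_nonneg_left k1 R0.le]
  have m0 : 0 ≤ max (t / d) (d / t) := le_max_of_le_left (by positivity)
  have Z1 : 1 ≤ Z := one_le_mul_of_one_le_of_one_le hM (one_le_pow₀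
    (one_le_mul_of_one_le_of_one_le hR (by nlinarith)))
  have G1 : (Gs g Q y * t ^ 2 / a t ^ 2) ^ j ≤ Z := G.trans (by rw [hZ]; gcongr)
  have G2 : Gs g Q y * t ^ 2 / a t ^ 2 ≤ Z := by
    rcases le_total (Gs g Q y * t ^ 2 / a t ^ 2) 1 with k | k
    · exact k.trans Z1
    · exact (le_self_pow₀ k (by omega)).trans G1
  rw [div_le_iff₀ (by positivity)] at G2
  have D0 : 0 ≤ D := by
    by_contra k
    nlinarith [mul_pos a0 u0, mul_neg_of_neg_of_pos (not_le.1 k) d0]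
  have k2 : (a t * u) ^ 2 ≤ (D * R) ^ 2 * t ^ 2 := by
    rw [← mul_pow]
    exact pow_le_pow_left₀ (by positivity) (a1.trans (by rw [mul_assoc]; gcongr)) 2
  have G3 : Gs g Q y * u ^ 2 ≤ Z * (D * R) ^ 2 := by
    refine le_of_mul_le_mul_right ?_ (pow_pos t0 2)
    calc _ = Gs g Q y * t ^ 2 * u ^ 2 := by ring
      _ ≤ Z * a t ^ 2 * u ^ 2 := by gcongr
      _ = Z * (a t * u) ^ 2 := by ring
      _ ≤ Z * ((D * R) ^ 2 * t ^ 2) := by gcongr
      _ = _ := by ring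
  have e : Gs g Q y * u ^ 2 = (‖g y‖ * u) ^ 2 + ‖Q y‖ * u ^ 2 := by unfold Gs; ring
  have p : 0 ≤ ‖Q y‖ * u ^ 2 := by positivity
  constructor
  · nlinarith [sq_nonneg (‖g y‖ * u - 1)]
  · nlinarith [sq_nonneg (‖g y‖ * u)]

end Vale.Agent.P097O
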