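import Vale.Agent.P097O.BdDefs

/-!
# P097O: covering a layer by windows
-/

open Filter Topology Set Metric MeasureTheory

namespace Vale.Agent.P097O

theorem cov_rect (S T : Set ℝ) :
    volume {y : ℂ | y.re ∈ S ∧ y.im ∈ T} = volume S * volume T := by
  have h := Complex.volume_preserving_equiv_real_prod.measure_preimage_equiv (S ×ˢ T)
  rw [Measure.volume_eq_prod, Measure.prod_prod] at h
  exact h

theorem cov : S_COV := by
  intro E B r d ε₁ ε₂ hd hd1 h1 h2 _ hB hE hW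
  let N : ℕ := ⌊1 / d⌋₊ + 1
  let Pc : ℕ → Set ℂ := fun i => {y | y ∈ E ∧ y.re ∉ B ∧ i * d ≤ y.re ∧ y.re ≤ (i + 1) * d}
  have hsub : E ⊆ {y : ℂ | y.re ∈ B ∩ Icc 0 1 ∧ y.im ∈ Icc (r - 2 * d) r} ∪
      ⋃ i ∈ Finset.range N, Pc i := by
    intro y hy
    obtain ⟨a, b, c, e⟩ := hE y hy
    by_cases hb : y.re ∈ B
    · exact Or.inl ⟨⟨hb, a, b⟩, c, e⟩
    · refine Or.inr (mem_iUnion₂.2 ⟨⌊y.re / d⌋₊, ?_, hy, hb, ?_, ?_⟩)
      · exact Finset.mem_range.2 (Nat.lt_succ_of_le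
          (Nat.floor_le_floor (div_le_div_of_nonneg_right b hd.le)))
      · exact (le_div_iff₀ hd).1 (Nat.floor_le (div_nonneg a hd.le))
      · exact (div_le_iff₀ hd).1 (Nat.lt_floor_add_one _).le
  have hP : ∀ i, volume (Pc i) ≤ ENNReal.ofReal (ε₂ * d ^ 2) := fun i => by
    rcases (Pc i).eq_empty_or_nonempty with h | ⟨y₀, hy₀⟩
    · rw [h, measure_empty]
      exact zero_le
    · refine (measure_mono fun y hy => ?_).trans (hW y₀.re hy₀.2.1)
      refine ⟨hy.1, abs_le.2 ⟨?_, ?_⟩⟩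
      · linarith [hy.2.2.1, hy₀.2.2.2]
      · linarith [hy.2.2.2, hy₀.2.2.1]
  have hB' : volume (B ∩ Icc 0 1) ≤ ENNReal.ofReal ε₁ := by
    have h : volume (B ∩ Icc (0 : ℝ) 1) = volume (B ∩ Ico 0 1) :=
      measure_congr (ae_eq_set_inter (ae_eq_refl B) Ico_ae_eq_Icc.symm)
    rw [h]
    exact hB
  have hA : volume {y : ℂ | y.re ∈ B ∩ Icc 0 1 ∧ y.im ∈ Icc (r - 2 * d) r} ≤
      ENNReal.ofReal (ε₁ * (2 * d)) := by
    rw [cov_rect, Real.volume_Icc, ENNReal.ofReal_mul h1, sub_sub_cancel]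
    exact mul_le_mul' hB' le_rfl
  have hN : (N : ℝ) * (ε₂ * d ^ 2) ≤ ε₂ * (2 * d) := by
    have h3 : (N : ℝ) ≤ 1 / d + 1 := by
      rw [Nat.cast_add, Nat.cast_one]
      exact add_le_add (Nat.floor_le (by positivity)) le_rfl
    have h4 : (N : ℝ) * d ≤ 2 := by
      have h5 := mul_le_mul_of_nonneg_right h3 hd.le
      rw [add_mul, one_div, inv_mul_cancel₀ hd.ne'] at h5
      linarith
    have h6 : (N : ℝ) * (ε₂ * d ^ 2) = (N * d) * (ε₂ * d) := by ring
    rw [h6]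
    have h7 := mul_le_mul_of_nonneg_right h4 (mul_nonneg h2 hd.le)
    linarith
  have hU : volume (⋃ i ∈ Finset.range N, Pc i) ≤ ENNReal.ofReal (ε₂ * (2 * d)) := by
    refine (measure_biUnion_finset_le _ _).trans ((Finset.sum_le_card_nsmul _ _ _
      fun i _ => hP i).trans ?_)
    rw [Finset.card_range, nsmul_eq_mul, ← ENNReal.ofReal_natCast,
      ← ENNReal.ofReal_mul (Nat.cast_nonneg _)]
    exact ENNReal.ofReal_le_ofReal hN
  refine (measure_mono hsub).trans ((measure_union_le _ _).trans ((add_le_add hA hU).trans ?_))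
  rw [← ENNReal.ofReal_add (by positivity) (by positivity)]
  exact ENNReal.ofReal_le_ofReal (le_of_eq (by ring))

end Vale.Agent.P097O
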