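import Vale.Agent.P097O.BdDefs

/-!
# P097O: one window, in the units of the curve
-/

set_option linter.all false

open Filter Topology Set Metric MeasureTheory
open Vale.Agent.P097M (GQ Gs)
open Vale.Agent.P097T (Strip)
open scoped Pointwise

namespace Vale.Agent.P097O

namespace Loc

theorem dd {g : ℂ → ℂ} {S : Set ℂ} (hS : IsOpen S) (hg : DifferentiableOn ℂ g S) (a b c : ℂ)
    {X : ℂ} (hX : a + b * X ∈ S) :
    deriv (deriv fun z => c * g (a + b * z)) X = c * b ^ 2 * deriv (deriv g) (a + b * X) := by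
  have hl : ∀ z : ℂ, HasDerivAt (fun z => a + b * z) b z := fun z => by
    simpa using ((hasDerivAt_id z).const_mul b).const_add a
  have e : deriv (fun z => c * g (a + b * z)) =ᶠ[𝓝 X] fun z => c * b * deriv g (a + b * z) := by
    filter_upwards [(hl X).continuousAt.preimage_mem_nhds (hS.mem_nhds hX)] with z hz
    have h1 := (((hg.differentiableAt (hS.mem_nhds hz)).hasDerivAt.comp z (hl z))).const_mul c
    rw [show c * b * deriv g (a + b * z) = c * (deriv g (a + b * z) * b) by ring]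
    exact h1.deriv
  rw [e.deriv_eq]
  have h2 := ((((hg.deriv hS).differentiableAt (hS.mem_nhds hX)).hasDerivAt.comp X
    (hl X))).const_mul (c * b)
  rw [show c * b ^ 2 * deriv (deriv g) (a + b * X) =
    c * b * (deriv (deriv g) (a + b * X) * b) by ring]
  exact h2.deriv

end Loc

theorem loc (hW : S_WIN) : S_LOC := by
  intro R B c ε b hR hc hε
  have R0 : 0 < R := by linarith
  let U : Set ℂ := {X | |X.re| < 2 * R ∧ 1 / (2 * R) < -X.im ∧ -X.im < 2 * R}
  let K : Set ℂ := {X | |X.re| ≤ R ∧ 1 / R ≤ -X.im ∧ -X.im ≤ R}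
  have c1 : Continuous fun X : ℂ => |X.re| := by fun_prop
  have c2 : Continuous fun X : ℂ => -X.im := by fun_prop
  have hU : IsOpen U :=
    (isOpen_lt c1 continuous_const).inter
      ((isOpen_lt continuous_const c2).inter (isOpen_lt c2 continuous_const))
  have hc1 : Convex ℝ U := by
    have e : U = ({X : ℂ | -(2 * R) < X.re} ∩ {X | X.re < 2 * R}) ∩
        ({X | X.im < -(1 / (2 * R))} ∩ {X | -(2 * R) < X.im}) := by
      ext X
      simp only [U, mem_setOf_eq, mem_inter_iff, abs_lt]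
      constructor
      · rintro ⟨⟨a, b⟩, c, d⟩
        exact ⟨⟨a, b⟩, by linarith, by linarith⟩
      · rintro ⟨⟨a, b⟩, c, d⟩
        exact ⟨⟨a, b⟩, by linarith, by linarith⟩
    rw [e]
    exact ((convex_halfSpace_re_gt _).inter (convex_halfSpace_re_lt _)).inter
      ((convex_halfSpace_im_lt _).inter (convex_halfSpace_im_gt _))
  have h12 : 1 / (2 * R) < 1 / R := one_div_lt_one_div_of_lt R0 (by linarith)
  have hK : IsCompact K := by
    refine isCompact_of_isClosed_isBounded
      ((isClosed_le c1 continuous_const).inter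
        ((isClosed_le continuous_const c2).inter (isClosed_le c2 continuous_const)))
      ((isBounded_closedBall (x := (0 : ℂ)) (r := 2 * R)).subset fun X hX => ?_)
    rw [mem_closedBall_zero_iff]
    have h1 := Complex.norm_le_abs_re_add_abs_im X
    have h2 : |X.im| ≤ R := abs_le.mpr ⟨by linarith [hX.2.2], by
      have := hX.2.1
      have : 0 < 1 / R := by positivity
      linarith⟩
    linarith [hX.1]
  have hKU : K ⊆ U := fun X hX =>
    ⟨by linarith [hX.1], by linarith [hX.2.1], by linarith [hX.2.2]⟩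
  obtain ⟨A₀, hA⟩ := hW U K B c ε b hU hc1.isPreconnected hK hKU hc hε
  refine ⟨A₀, fun r s u d g Q hG u0 d0 d1 hr hAu hB hP => ?_⟩
  let a : ℂ := ⟨s, r⟩
  have hre : ∀ X : ℂ, (a + d * X).re - s = d * X.re := fun X => by simp [a]
  have him : ∀ X : ℂ, r - (a + d * X).im = d * -X.im := fun X => by simp [a]
  have hbox : ∀ X ∈ U, |(a + d * X).re - s| < 2 * R * d ∧ d / (2 * R) < r - (a + d * X).im ∧
      r - (a + d * X).im < 2 * R * d := by
    intro X hX
    rw [hre, him, abs_mul, abs_of_pos d0, mul_comm (2 * R) d, div_eq_mul_one_div]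
    exact ⟨mul_lt_mul_of_pos_left hX.1 d0, mul_lt_mul_of_pos_left hX.2.1 d0,
      mul_lt_mul_of_pos_left hX.2.2 d0⟩
  have hS : IsOpen (Strip r) := isOpen_lt (by fun_prop) continuous_const
  have hm : ∀ X ∈ U, a + d * X ∈ Strip r := by
    intro X hX
    obtain ⟨-, h1, h2⟩ := hbox X hX
    have : 0 < d / (2 * R) := by positivity
    change |(a + d * X).im| < r
    exact abs_lt.mpr ⟨by linarith [hG.rpos], by linarith⟩
  have hl : DifferentiableOn ℂ (fun X : ℂ => a + d * X) U := by fun_prop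
  have n1 : ∀ w : ℂ, ‖(u : ℂ) * w‖ = ‖w‖ * u := fun w => by
    rw [norm_mul, Complex.norm_real, Real.norm_of_nonneg u0.le, mul_comm]
  have n2 : ∀ w : ℂ, ‖(u : ℂ) ^ 2 * w‖ = ‖w‖ * u ^ 2 := fun w => by
    rw [norm_mul, norm_pow, Complex.norm_real, Real.norm_of_nonneg u0.le, mul_comm]
  have inv : ∀ y : ℂ, a + d * (d⁻¹ • (-a + y)) = y := fun y => by
    have : (d : ℂ) ≠ 0 := by exact_mod_cast d0.ne'
    rw [Complex.real_smul, Complex.ofReal_inv, ← mul_assoc, mul_inv_cancel₀ this]
    ring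
  have inK : ∀ y : ℂ, |y.re - s| ≤ R * d → d / R ≤ r - y.im → r - y.im ≤ R * d →
      d⁻¹ • (-a + y) ∈ K := by
    intro y h1 h2 h3
    rw [← inv y, hre, abs_mul, abs_of_pos d0, mul_comm R d] at h1
    rw [← inv y, him, div_eq_mul_one_div] at h2
    rw [← inv y, him, mul_comm R d] at h3
    exact ⟨le_of_mul_le_mul_left h1 d0, le_of_mul_le_mul_left h2 d0, le_of_mul_le_mul_left h3 d0⟩
  have key := hA (d / u) (1 / u) (fun X => (u : ℂ) * g (a + d * X))
    (fun X => (u : ℂ) ^ 2 * Q (a + d * X)) ((le_div_iff₀ u0).mpr hAu) (by gcongr)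
    ((hG.dg.comp hl hm).const_mul _) ((hG.dQ.comp hl hm).const_mul _)
    (fun X hX => by
      rw [n1, n2]
      exact hB _ (hbox X hX).1 (hbox X hX).2.1 (hbox X hX).2.2)
    (fun X hX => by
      have : (u : ℂ) ≠ 0 := by exact_mod_cast u0.ne'
      rw [Loc.dd hS hG.dg a d u (hm X hX), hG.ode _ (hm X hX)]
      push_cast
      field_simp)
    (by
      obtain ⟨y, h1, h2, h3, h4⟩ := hP
      refine ⟨_, inK y h1 h2 h3, ?_⟩
      rw [inv y, n1, n2]
      exact h4)
  refine le_trans (measure_mono (t := (fun y => -a + y) ⁻¹' (d • {z | z ∈ K ∧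
    Real.exp (-b) ≤ 1 / u * ‖(u : ℂ) * g (a + d * z)‖ ∧
      1 / u * ‖(u : ℂ) * g (a + d * z)‖ ≤ Real.exp b})) fun y hy => ?_) ?_
  · refine (mem_smul_set_iff_inv_smul_mem₀ d0.ne' _ _).mpr ⟨inK y hy.1 hy.2.1 hy.2.2.1, ?_⟩
    have e : 1 / u * (‖g y‖ * u) = ‖g y‖ := by field_simp
    rw [inv y, n1, e]
    exact hy.2.2.2
  · rw [measure_preimage_add, Measure.addHaar_smul, Complex.finrank_real_complex,
      abs_of_pos (by positivity), mul_comm ε, ENNReal.ofReal_mul (by positivity)]
    exact mul_le_mul_right key _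

end Vale.Agent.P097O
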