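import Vale.Agent.P097O.BdDefs
import Vale.Agent.P299.H720.Montel

/-!
# P097O: small sublevel sets in a normal family (row 1721)
-/

set_option linter.all false

open Filter Topology Set Metric MeasureTheory

namespace Vale.Agent.P097O

theorem sub : S_SUB := by
  intro U K B c ε hU hP hK hKU c0 ε0
  by_contra hc
  push Not at hc
  choose f hd hB hz hv using fun n : ℕ => hc (1 / ((n : ℝ) + 1)) Nat.one_div_pos_of_nat
  choose z hzK hzc using hz
  obtain ⟨g, g1, g2, g3⟩ := P299.H720.montel_full (hyperfilter ℕ) (f := f) hU fun x hx => by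
    obtain ⟨r, r0, hr⟩ := Metric.isOpen_iff.1 hU x hx
    exact ⟨r, r0, B, .of_forall fun j => ⟨(hd j).mono hr, fun y hy => hB j y (hr hy)⟩⟩
  obtain ⟨x, xK, hx⟩ := hK.ultrafilter_le_nhds ((hyperfilter ℕ).map z)
    (le_principal_iff.2 (mem_map.2 (univ_mem' hzK)))
  have gx : c ≤ ‖g x‖ := ge_of_tendsto (g3 x (hKU xK) z hx).norm (.of_forall hzc)
  have an : AnalyticOnNhd ℂ g U := g1.analyticOnNhd hU
  have ne : ∀ᶠ y in codiscreteWithin U, g y ≠ 0 :=
    (an.eqOn_zero_or_eventually_ne_zero_of_preconnected hP).resolve_left fun h => by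
      rw [h (hKU xK), Pi.zero_apply, norm_zero] at gx
      linarith
  have ae1 : ∀ᵐ y ∂(volume.restrict U), g y ≠ 0 :=
    ae_restrict_le_codiscreteWithin hU.measurableSet ne
  rw [ae_restrict_iff' hU.measurableSet] at ae1
  set S : ℕ → Set ℂ := fun m => K ∩ (fun y => ‖g y‖) ⁻¹' Iic (1 / ((m : ℝ) + 1)) with hS
  have cl : ∀ m, IsClosed (S m) := fun m =>
    (g1.continuousOn.mono hKU).norm.preimage_isClosed_of_isClosed hK.isClosed isClosed_Iic
  have at1 : Antitone S := fun m n h y hy =>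
    ⟨hy.1, (show ‖g y‖ ≤ 1 / ((n : ℝ) + 1) from hy.2).trans (Nat.one_div_le_one_div h)⟩
  have t1 := tendsto_measure_iInter_atTop (μ := volume)
    (fun m => (cl m).measurableSet.nullMeasurableSet) at1
    ⟨0, ((measure_mono inter_subset_left).trans_lt hK.measure_lt_top).ne⟩
  have z0 : volume (⋂ m, S m) = 0 := by
    refine measure_mono_null (fun y hy => ?_) ae1
    have h1 := mem_iInter.1 hy
    have h2 : ‖g y‖ ≤ 0 :=
      ge_of_tendsto tendsto_one_div_add_atTop_nhds_zero_nat (.of_forall fun m => (h1 m).2)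
    exact fun h => h (hKU (h1 0).1) (norm_le_zero_iff.1 h2)
  rw [z0] at t1
  obtain ⟨m, hm⟩ := (t1.eventually (gt_mem_nhds (ENNReal.ofReal_pos.2 ε0))).exists
  have δ0 : 0 < 1 / ((m : ℝ) + 1) / 2 := half_pos Nat.one_div_pos_of_nat
  have u1 := Metric.tendstoUniformlyOn_iff.1
    ((tendstoLocallyUniformlyOn_iff_tendstoUniformlyOn_of_compact hK).1 (g2.mono hKU)) _ δ0
  have u2 : ∀ᶠ n : ℕ in (hyperfilter ℕ : Filter ℕ), 1 / ((n : ℝ) + 1) < 1 / ((m : ℝ) + 1) / 2 :=
    (tendsto_one_div_add_atTop_nhds_zero_nat.eventually (gt_mem_nhds δ0)).filter_mono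
      (Nat.hyperfilter_le_atTop)
  obtain ⟨n, n1, n2⟩ := (u1.and u2).exists
  refine absurd ((hv n).trans_le (measure_mono fun y hy => ?_)) (not_lt.2 (le_of_lt hm))
  refine ⟨hy.1, ?_⟩
  have h1 := n1 y hy.1
  rw [dist_eq_norm] at h1
  have h2 := norm_sub_norm_le (g y) (f n y)
  show ‖g y‖ ≤ 1 / ((m : ℝ) + 1)
  linarith [hy.2]

end Vale.Agent.P097O
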