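import Vale.Agent.P097O.BdDefs
import Vale.Agent.P299.H720.Montel

/-!
# P097O row 1723: one window, in normalised units
-/

open Filter Topology Set Metric MeasureTheory

namespace Vale.Agent.P097O

theorem win_dir (a : ℂ) (ha : a ≠ 0) : ∃ e : ℂ, ‖e‖ = 1 ∧ a * e ^ 2 = (‖a‖ : ℂ) := by
  have hn : (‖a‖ : ℂ) ≠ 0 := by exact_mod_cast (norm_ne_zero_iff.2 ha)
  obtain ⟨e, he⟩ := IsAlgClosed.exists_pow_nat_eq ((‖a‖ : ℂ) / a) (n := 2) two_pos
  refine ⟨e, ?_, by rw [he]; field_simp⟩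
  have h1 : ‖e‖ ^ 2 = 1 := by
    rw [← norm_pow, he, norm_div, Complex.norm_real, norm_norm,
      div_self (norm_ne_zero_iff.2 ha)]
  exact (pow_eq_one_iff_of_nonneg (norm_nonneg e) two_ne_zero).1 h1

theorem win_ball (hC : S_CHA) {f q : ℂ → ℂ} {x w₀ : ℂ} {ρ η A μ b : ℝ} (hρ : 0 < ρ) (hη : 0 < η)
    (hA : 0 < A) (hμ : 0 < μ) (df : DifferentiableOn ℂ f (ball x ρ))
    (ode : ∀ z ∈ ball x ρ, deriv (deriv f) z = (A : ℂ) ^ 2 * q z * f z)
    (lip : ∀ w ∈ ball x ρ, ‖q w - q x‖ ≤ η / 4) (h0 : w₀ ∈ ball x ρ) (h1 : η < ‖q w₀‖) :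
    volume {w | w ∈ ball x ρ ∧ Real.exp (-b) ≤ μ * ‖f w‖ ∧ μ * ‖f w‖ ≤ Real.exp b} ≤
      ENNReal.ofReal (4 * ρ * Real.exp (2 * b) / (A * Real.sqrt (η / 2))) := by
  have hx : 3 * η / 4 ≤ ‖q x‖ := by
    have a := lip w₀ h0
    have b := norm_sub_norm_le (q w₀) (q x)
    linarith
  have hx0 : q x ≠ 0 := norm_pos_iff.1 (by linarith)
  obtain ⟨e, he, he2⟩ := win_dir (q x) hx0
  have hs : 0 < Real.sqrt (η / 2) := Real.sqrt_pos.2 (by linarith)
  have key := hC (fun z => (μ : ℂ) * f z) (fun z => (A : ℂ) ^ 2 * q z) x e ρ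
    (A * Real.sqrt (η / 2)) b he (mul_pos hA hs) hρ (df.const_mul _) (fun w hw => by
      rw [deriv_const_mul_field', deriv_const_mul_field, ode w hw]; ring) (fun w hw => by
      have e1 : (A : ℂ) ^ 2 * q w * e ^ 2 =
          ((A ^ 2 : ℝ) : ℂ) * ((‖q x‖ : ℂ) + (q w - q x) * e ^ 2) := by
        rw [← he2]; push_cast; ring
      rw [e1, Complex.re_ofReal_mul, mul_pow, Real.sq_sqrt (by linarith), Complex.add_re,
        Complex.ofReal_re]
      refine mul_le_mul_of_nonneg_left ?_ (sq_nonneg A)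
      have a := Complex.abs_re_le_norm ((q w - q x) * e ^ 2)
      rw [norm_mul, norm_pow, he, one_pow, mul_one] at a
      have b := lip w hw
      have c := neg_abs_le ((q w - q x) * e ^ 2).re
      linarith)
  refine le_trans (measure_mono fun w hw => ?_) key
  have e2 : ‖(μ : ℂ) * f w‖ = μ * ‖f w‖ := by
    rw [norm_mul, Complex.norm_real, Real.norm_of_nonneg hμ.le]
  exact ⟨hw.1, by rw [e2]; exact hw.2.1, by rw [e2]; exact hw.2.2⟩

theorem win (hS : S_SUB) (hC : S_CHA) : S_WIN := by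
  intro U K B c ε b hU hcon hK hKU hc hε
  obtain ⟨η, hη, hsub⟩ := hS U K B c (ε / 2) hU hcon hK hKU hc (half_pos hε)
  obtain ⟨δ, hδ, hth⟩ := hK.exists_thickening_subset_open hU hKU
  have hB1 : 0 < |B| + 1 := by positivity
  set ρ : ℝ := min (δ / 4) (η * δ / (16 * (|B| + 1))) with hρd
  have hρ : 0 < ρ := lt_min (by positivity) (by positivity)
  have hρ1 : ρ ≤ δ / 4 := min_le_left _ _
  have hρ2 : ρ ≤ η * δ / (16 * (|B| + 1)) := min_le_right _ _
  obtain ⟨t, htK, hcov⟩ := hK.elim_nhds_subcover (fun z => ball z ρ)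
    fun z _ => ball_mem_nhds z hρ
  have hs : 0 < Real.sqrt (η / 2) := Real.sqrt_pos.2 (by linarith)
  set X : ℝ := t.card * (4 * ρ * Real.exp (2 * b)) / (Real.sqrt (η / 2) * (ε / 2)) with hX
  have hX0 : 0 ≤ X := by positivity
  have hE0 : 0 < Real.exp b / η := by positivity
  refine ⟨Real.exp b / η + X, fun A μ f q hA hμ df dq hB ode hz => ?_⟩
  have hA0 : 0 < A := by linarith
  have hμ0 : 0 < μ := by linarith
  obtain ⟨z, hzK, hz | hz⟩ := hz
  · refine le_trans (measure_mono fun w hw => ?_)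
      ((hsub f df (fun z hz => (hB z hz).1) ⟨z, hzK, hz⟩).trans
        (ENNReal.ofReal_le_ofReal (by linarith)))
    refine ⟨hw.1, ?_⟩
    have a : Real.exp b ≤ μ * η := (div_le_iff₀ hη).1 (by linarith)
    exact le_of_mul_le_mul_left (hw.2.2.trans a) hμ0
  · have h1 := hsub q dq (fun z hz => (hB z hz).2) ⟨z, hzK, hz⟩
    set V : ℝ := 4 * ρ * Real.exp (2 * b) / (A * Real.sqrt (η / 2)) with hV
    have hV0 : 0 ≤ V := by positivity
    let E : ℂ → Set ℂ := fun x => {w | (w ∈ ball x ρ ∧ Real.exp (-b) ≤ μ * ‖f w‖ ∧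
      μ * ‖f w‖ ≤ Real.exp b) ∧ η < ‖q w‖}
    have hE : ∀ x ∈ t, volume (E x) ≤ ENNReal.ofReal V := by
      intro x hx
      rcases (E x).eq_empty_or_nonempty with h | ⟨w₀, h⟩
      · rw [h, measure_empty]; exact zero_le
      have hb : ball x δ ⊆ U := (ball_subset_thickening (htK x hx) δ).trans hth
      have hb' : ball x ρ ⊆ U := (ball_subset_ball (by linarith)).trans hb
      refine le_trans (measure_mono fun w hw => hw.1) (win_ball hC hρ hη hA0 hμ0 (df.mono hb')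
        (fun z hz => ode z (hb' hz)) (fun w hw => ?_) h.1.1 h.2)
      have l := P299.H720.lip_of_bdd (C := |B| + 1) hδ (dq.mono hb)
        (fun y hy => ((hB y (hb hy)).2.trans (le_abs_self B)).trans (by linarith))
        (mem_ball_self (by positivity)) (ball_subset_ball hρ1 hw)
      rw [dist_eq_norm] at l
      have d1 : dist w x ≤ η * δ / (16 * (|B| + 1)) := (mem_ball.1 hw).le.trans hρ2
      calc _ ≤ _ := l
        _ ≤ 4 * (|B| + 1) / δ * (η * δ / (16 * (|B| + 1))) :=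
          mul_le_mul_of_nonneg_left d1 (by positivity)
        _ = η / 4 := by field_simp; ring
    have hsubs : {z | z ∈ K ∧ Real.exp (-b) ≤ μ * ‖f z‖ ∧ μ * ‖f z‖ ≤ Real.exp b} ⊆
        {z | z ∈ K ∧ ‖q z‖ ≤ η} ∪ ⋃ x ∈ t, E x := by
      intro w hw
      by_cases h : ‖q w‖ ≤ η
      · exact Or.inl ⟨hw.1, h⟩
      · obtain ⟨x, hx, hwx⟩ := mem_iUnion₂.1 (hcov hw.1)
        exact Or.inr (mem_iUnion₂.2 ⟨x, hx, ⟨hwx, hw.2⟩, not_le.1 h⟩)
    have h2 : volume (⋃ x ∈ t, E x) ≤ ENNReal.ofReal (ε / 2) := by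
      refine (measure_biUnion_finset_le t E).trans ((Finset.sum_le_card_nsmul t _ _ hE).trans ?_)
      rw [nsmul_eq_mul, ← ENNReal.ofReal_natCast, ← ENNReal.ofReal_mul (Nat.cast_nonneg _)]
      refine ENNReal.ofReal_le_ofReal ?_
      have a : X ≤ A := by linarith
      rw [hX, div_le_iff₀ (by positivity)] at a
      rw [hV, ← mul_div_assoc, div_le_iff₀ (by positivity)]
      linarith
    refine (measure_mono hsubs).trans ((measure_union_le _ _).trans ?_)
    calc _ ≤ ENNReal.ofReal (ε / 2) + ENNReal.ofReal (ε / 2) := add_le_add h1 h2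
      _ = ENNReal.ofReal ε := by
        rw [← ENNReal.ofReal_add (by linarith) (by linarith), add_halves]

end Vale.Agent.P097O
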