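import Vale.Agent.P097O.Band
import Vale.Agent.P097O.BdSub
import Vale.Agent.P097O.BdCha
import Vale.Agent.P097O.BdWin
import Vale.Agent.P097O.BdCov
import Vale.Agent.P097O.BdLoc
import Vale.Agent.P097O.BdBox
import Vale.Agent.P097O.BdApt
import Vale.Agent.P097G3.Bda
import Vale.Agent.P097G3.Sym

/-!
# P097O: the band block, closed
-/

namespace Vale.Agent.P097O

theorem band : S_BAND := band_of cov (loc (win sub cha)) box apt

theorem bd : P097F.Spec_BD := fun r c κ u₀ p θ H Q Y₀ η Y D =>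
  P097G3.bda_of D.cur.rpos (P097G3.sym r c 1 θ H (deriv θ) Q (P097K.sd_of D.cur))
    (band r c κ u₀ p θ H Q Y₀ η Y D)

end Vale.Agent.P097O
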