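import Vale.Agent.P097O.BdDefs
import Vale.Agent.P097W.All

/-!
# P097O: assembly of the band block (row 1728)
-/

set_option linter.all false

open Filter Topology Set Metric MeasureTheory

namespace Vale.Agent.P097O

theorem APt.mono {r s u d c R R' : ℝ} {g Q : ℂ → ℂ} (h : APt r g Q s u d c R) (hd : 0 < d)
    (h1 : 1 ≤ R) (e : R ≤ R') : APt r g Q s u d c R' := by
  obtain ⟨y, a1, a2, a3, a4⟩ := h
  have k : R * d ≤ R' * d := mul_le_mul_of_nonneg_right e hd.le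
  exact ⟨y, a1.trans k, (div_le_div_of_nonneg_left hd.le (by linarith) e).trans a2, a3.trans k, a4⟩

theorem band_of (hC : S_COV) (hL : S_LOC) (hX : S_BOX) (hA : S_APT) : S_BAND := by
  intro r c κ u₀ p θ H Q Y₀ η Y D b La ε d₀ b0 La1 ε0 d0
  have r0 := D.cur.rpos
  have u0 := D.fam.pos
  obtain ⟨C, hC'⟩ := D.pw
  have ηr : ∀ v ∈ Ioo 0 u₀, η v ≤ r := fun v m => by linarith [D.fam.low v m, D.fam.sol.pos]
  have pw : ∀ v ∈ Ioo 0 u₀, η v ^ (p + 2) ≤ |C| * r * v := fun v m => by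
    have a1 : η v ^ (p + 1) ≤ |C| * v :=
      (hC' v m).trans (mul_le_mul_of_nonneg_right (le_abs_self C) m.1.le)
    rw [pow_succ, mul_right_comm]
    exact mul_le_mul a1 (ηr v m) (D.fam.nn v m) (mul_nonneg (abs_nonneg C) m.1.le)
  obtain ⟨pk1, pk2⟩ := P097W.peak η u₀ (p + 2) (by omega) D.fam.nn
  have hm := P097W.h2w r c (u₀ / 2) θ H Q (p + 2) D.cur (by omega) (by positivity)
  obtain ⟨M, M1, hM⟩ := P097W.good r _ Q _ r0 (fun a ha => ha.1) hm 16 (ε / 8) (by norm_num)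
    (by positivity)
  obtain ⟨c₀, R₀, A₁, c0, R1, hA⟩ := hA r c κ u₀ p θ H Q Y₀ η Y D M 1 M1 le_rfl
  obtain ⟨R, k1, k2, k3⟩ : ∃ R : ℝ, R₀ ≤ R ∧ La ≤ R ∧ 2 ≤ R :=
    ⟨max R₀ (max La 2), le_max_left _ _, le_max_of_le_right (le_max_left _ _),
      le_max_of_le_right (le_max_right _ _)⟩
  obtain ⟨B, hX⟩ := hX 16 M (2 * R) ((2 * R) ^ (p + 1)) (by norm_num) M1 (by linarith)
  obtain ⟨A₀, hL⟩ := hL R B c₀ (ε / 8) b (by linarith) c0 (by positivity)
  obtain ⟨δ, δ0, δ1, δ2, δ3⟩ : ∃ δ : ℝ, 0 < δ ∧ δ < d₀ ∧ δ ≤ 1 ∧ 2 * R * δ ≤ r :=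
    ⟨min (d₀ / 2) (min 1 (r / (2 * R))), by positivity, (min_le_left _ _).trans_lt (by linarith),
      (min_le_right _ _).trans (min_le_left _ _), (le_div_iff₀' (by positivity)).1
        ((min_le_right _ _).trans (min_le_right _ _))⟩
  obtain ⟨Λ, l1, l2, l3, l4⟩ : ∃ Λ : ℝ, 1 ≤ Λ ∧ A₀ ≤ Λ ∧ A₁ ≤ Λ ∧ |C| * r / δ ^ (p + 1) ≤ Λ :=
    ⟨max (max 1 A₀) (max A₁ (|C| * r / δ ^ (p + 1))), le_max_of_le_left (le_max_left _ _),
      le_max_of_le_left (le_max_right _ _), le_max_of_le_right (le_max_left _ _),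
      le_max_of_le_right (le_max_right _ _)⟩
  obtain ⟨u, pk, hu⟩ := pk1 ⟨_, pw⟩ (fun Λ =>
    let ⟨S, m, _, k⟩ := D.fam.big D.big Λ 1 one_pos
    ⟨S, m, k⟩) Λ
  have um := pk.1
  have v0 := um.1
  have ud : u ≤ η u := (le_mul_of_one_le_left v0.le l1).trans hu
  obtain ⟨w1, w2⟩ := pk2 u pk ud
  have a0 : A₀ * u ≤ η u := (mul_le_mul_of_nonneg_right l2 v0.le).trans hu
  have a1 : A₁ * u ≤ η u := (mul_le_mul_of_nonneg_right l3 v0.le).trans hu
  have hp := pw u um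
  have hA := hA u um a1 (v0.trans_le ud)
  have hM := fun h0 => hM (P097W.wt (p + 2) u (η u)) ⟨w1, fun τ τ0 τ1 L v L1 v1 hv =>
    have vm : v ∈ Ioo 0 u₀ := ⟨v1, by
      have e1 : v ≤ v * P097W.wt (p + 2) u (η u) τ := le_mul_of_one_le_right v1.le (w1.1 τ)
      have e2 := le_mul_of_one_le_right (v1.le.trans e1) (one_le_pow₀ L1 (n := p + 2))
      linarith⟩
    D.fam.rch vm (w2 τ L v τ0 L1 vm hv)⟩ (η u) h0
  generalize η u = d at *
  have dp : 0 < d := v0.trans_le ud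
  have dδ : d ≤ δ := by
    refine le_of_pow_le_pow_left₀ (Nat.succ_ne_zero p) δ0.le (le_of_mul_le_mul_right ?_ dp)
    have e1 := (div_le_iff₀ (pow_pos δ0 (p + 1))).1 l4
    have e2 := mul_le_mul_of_nonneg_right e1 v0.le
    have e3 := mul_le_mul_of_nonneg_left hu (pow_pos δ0 (p + 1)).le
    rw [← pow_succ]
    show d ^ (p + 2) ≤ δ ^ (p + 1) * d
    linarith
  have dR : 2 * R * d ≤ r := (mul_le_mul_of_nonneg_left dδ (by linarith)).trans δ3
  obtain ⟨Bd, o1, -, o3, o4⟩ := hM dp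
  have wp : ∀ t, 0 < P097W.wt (p + 2) u d t := fun t => one_pos.trans_le (w1.1 t)
  refine ⟨d, dp, dδ.trans_lt δ1, (hC _ Bd r d (ε / 8) (ε / 8) dp (dδ.trans δ2) (by positivity)
    (by positivity) o1 o3 (fun y hy => ⟨hy.1, hy.2.1, by linarith [hy.2.2.2.1], by
      linarith [hy.2.2.1, div_pos dp (show 0 < La by linarith)]⟩) fun s hs => ?_).trans_lt
    ((ENNReal.ofReal_lt_ofReal_iff (by positivity)).2 (by nlinarith [mul_pos ε0 dp]))⟩
  refine le_trans (measure_mono fun y hy => ?_) (hL r s u d _ Q (P097M.gq0 r c θ H Q D.cur) v0 dp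
    (dδ.trans δ2) dR a0 (hX r s u d _ Q _ v0 dp dR (fun t t1 _ => ⟨wp t, ?_⟩) (o4 s hs))
    ((hA _ s (fun t t1 => ⟨wp t, ?_⟩) (o4 s hs)).mono dp R1 k1))
  · obtain ⟨⟨-, -, y1, y2, y3, y4⟩, y5⟩ := hy
    exact ⟨y5.trans (le_mul_of_one_le_left dp.le (by linarith)),
      (div_le_div_of_nonneg_left dp.le (by linarith) k2).trans y1,
      y2.trans (mul_le_mul_of_nonneg_right k3 dp.le), y3, y4⟩
  · have t0 : 0 < t := lt_trans (by positivity) t1
    have e1 : max 1 (d / t) ≤ 2 * R := max_le (by linarith) (by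
      rw [div_lt_iff₀ (by positivity)] at t1
      rw [div_le_iff₀ t0]
      linarith)
    have e2 : P097W.wt (p + 2) u d t * u = max 1 (d / t) ^ (p + 1) * d := by
      rw [P097W.wt, show p + 2 - 1 = p + 1 from rfl]
      field_simp
    rw [e2]
    exact mul_le_mul_of_nonneg_right (pow_le_pow_left₀ (le_max_of_le_left one_pos.le) e1 _) dp.le
  · have e2 : P097W.wt (p + 2) u d t * u = d := by
      rw [P097W.wt, max_eq_left ((div_le_one (dp.trans_le t1)).2 t1), one_pow]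
      field_simp
    rw [e2, one_mul, pow_succ]
    exact mul_le_mul_of_nonneg_left t1 (by positivity)

end Vale.Agent.P097O
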