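import Vale.Agent.P097F.Top1
import Vale.Agent.P097G3.Defs

/-!
# P097O: the moderate band is thin at the peaks (statements)
-/

open Filter Topology Set Metric MeasureTheory
open Vale.Agent.P097M (GQ Gs)

namespace Vale.Agent.P097O

/-- row 1721: small sublevel sets in a normal family -/
def S_SUB : Prop := ∀ (U K : Set ℂ) (B c ε : ℝ), IsOpen U → IsPreconnected U → IsCompact K →
  K ⊆ U → 0 < c → 0 < ε → ∃ η : ℝ, 0 < η ∧ ∀ f : ℂ → ℂ, DifferentiableOn ℂ f U →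
    (∀ z ∈ U, ‖f z‖ ≤ B) → (∃ z ∈ K, c ≤ ‖f z‖) →
    volume {z | z ∈ K ∧ ‖f z‖ ≤ η} ≤ ENNReal.ofReal ε

/-- row 1722: convexity on parallel chords -/
def S_CHA : Prop := ∀ (G q : ℂ → ℂ) (z e : ℂ) (R k b : ℝ), ‖e‖ = 1 → 0 < k → 0 < R →
  DifferentiableOn ℂ G (ball z R) → (∀ w ∈ ball z R, deriv (deriv G) w = q w * G w) →
  (∀ w ∈ ball z R, k ^ 2 ≤ (q w * e ^ 2).re) →
  volume {w | w ∈ ball z R ∧ Real.exp (-b) ≤ ‖G w‖ ∧ ‖G w‖ ≤ Real.exp b} ≤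
    ENNReal.ofReal (4 * R * Real.exp (2 * b) / k)

/-- row 1723: one window, in normalised units -/
def S_WIN : Prop := ∀ (U K : Set ℂ) (B c ε b : ℝ), IsOpen U → IsPreconnected U → IsCompact K →
  K ⊆ U → 0 < c → 0 < ε → ∃ A₀ : ℝ, ∀ (A μ : ℝ) (f q : ℂ → ℂ), A₀ ≤ A → A ≤ μ →
    DifferentiableOn ℂ f U → DifferentiableOn ℂ q U → (∀ z ∈ U, ‖f z‖ ≤ B ∧ ‖q z‖ ≤ B) →
    (∀ z ∈ U, deriv (deriv f) z = (A : ℂ) ^ 2 * q z * f z) →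
    (∃ z ∈ K, c ≤ ‖f z‖ ∨ c ≤ ‖q z‖) →
    volume {z | z ∈ K ∧ Real.exp (-b) ≤ μ * ‖f z‖ ∧ μ * ‖f z‖ ≤ Real.exp b} ≤ ENNReal.ofReal ε

/-- row 1724: covering a layer by windows -/
def S_COV : Prop := ∀ (E : Set ℂ) (B : Set ℝ) (r d ε₁ ε₂ : ℝ), 0 < d → d ≤ 1 → 0 ≤ ε₁ → 0 ≤ ε₂ →
  IsOpen B → volume (B ∩ Ico 0 1) ≤ ENNReal.ofReal ε₁ →
  (∀ y ∈ E, 0 ≤ y.re ∧ y.re ≤ 1 ∧ r - 2 * d ≤ y.im ∧ y.im ≤ r) →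
  (∀ s ∉ B, volume {y | y ∈ E ∧ |y.re - s| ≤ d} ≤ ENNReal.ofReal (ε₂ * d ^ 2)) →
  volume E ≤ ENNReal.ofReal (2 * (ε₁ + ε₂) * d)

/-- an active point in the window with centre `s`, unit `d` and step `u` -/
def APt (r : ℝ) (g Q : ℂ → ℂ) (s u d c R : ℝ) : Prop := ∃ y : ℂ, |y.re - s| ≤ R * d ∧
  d / R ≤ r - y.im ∧ r - y.im ≤ R * d ∧ (c ≤ ‖g y‖ * u ∨ c ≤ ‖Q y‖ * u ^ 2)

/-- bounds in the window -/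
def Box (r : ℝ) (g Q : ℂ → ℂ) (s u d R B : ℝ) : Prop := ∀ y : ℂ, |y.re - s| < R * d →
  d / R < r - y.im → r - y.im < R * d → ‖g y‖ * u ≤ B ∧ ‖Q y‖ * u ^ 2 ≤ B

/-- row 1725: one window, in the units of the curve -/
def S_LOC : Prop := ∀ R B c ε b : ℝ, 1 ≤ R → 0 < c → 0 < ε → ∃ A₀ : ℝ,
  ∀ (r s u d : ℝ) (g Q : ℂ → ℂ), GQ r g Q → 0 < u → 0 < d → d ≤ 1 → 2 * R * d ≤ r → A₀ * u ≤ d →
    Box r g Q s u d (2 * R) B → APt r g Q s u d c R →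
    volume {y : ℂ | |y.re - s| ≤ R * d ∧ d / R ≤ r - y.im ∧ r - y.im ≤ R * d ∧
      Real.exp (-b) ≤ ‖g y‖ ∧ ‖g y‖ ≤ Real.exp b} ≤ ENNReal.ofReal (ε * d ^ 2)

/-- row 1726: bounds in a good window -/
def S_BOX : Prop := ∀ (j : ℕ) (M R D : ℝ), 1 ≤ j → 1 ≤ M → 1 ≤ R → ∃ B : ℝ,
  ∀ (r s u d : ℝ) (g Q : ℂ → ℂ) (a : ℝ → ℝ), 0 < u → 0 < d → R * d ≤ r →
    (∀ t, d / R < t → t < R * d → 0 < a t ∧ a t * u ≤ D * d) → P097W.Good r g Q a d j M s →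
    Box r g Q s u d R B

/-- row 1727: a good window has an active point (the weight may grow like `t ^ (1 / 8)`) -/
def S_APT : Prop := ∀ r c κ u₀ p θ H Q Y₀ η Y, P097F.Dat r c κ u₀ p θ H Q Y₀ η Y →
  ∀ M D : ℝ, 1 ≤ M → 1 ≤ D → ∃ c₀ R A₁ : ℝ, 0 < c₀ ∧ 1 ≤ R ∧ ∀ u ∈ Ioo 0 u₀, A₁ * u ≤ η u →
    0 < η u → ∀ (a : ℝ → ℝ) (s : ℝ),
      (∀ t, η u ≤ t → 0 < a t ∧ (a t * u) ^ 8 ≤ D * (η u ^ 7 * t)) →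
      P097W.Good r (deriv θ) Q a (η u) 16 M s → APt r (deriv θ) Q s u (η u) c₀ R

/-- row 1728: THE BLOCK -/
def S_BAND : Prop := ∀ r c κ u₀ p θ H Q Y₀ η Y, P097F.Dat r c κ u₀ p θ H Q Y₀ η Y →
  P097G3.BAND r (deriv θ)

end Vale.Agent.P097O
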