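import Vale.Agent.P097K.Spec

/-!
# P097O: the offsets of the lines are bounded on the odd leaf (no bound on `Q`)
-/

open Filter Topology Set Metric
open Vale.Agent.P097C

namespace Vale.Agent.P097O

/-- polynomial growth of `g` -/
def PG (r : ℝ) (g : ℂ → ℂ) : Prop := ∃ C₁ L₀ : ℝ, 1 ≤ C₁ ∧ ∀ L ≥ L₀, ∀ y ∈ St r,
  Real.exp (-L) ≤ dd r y → ‖g y‖ ≤ Real.exp (C₁ * L)

/-- `n` odd: the tangential offset times `sin δ_j` is linear in the support numbers, with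
coefficients which depend on the angles only -/
def AX (n : ℕ) [NeZero n] (ρ : ℝ) (θ h g : ℂ → ℂ) (Y : ℂ → ZMod n → ℂ) : Prop :=
  ∃ (σ : ZMod n → ℂ → ℂ) (B : ℝ), (∀ j, AnalyticOnNhd ℂ (σ j) (St ρ) ∧ σ j 0 ≠ 0) ∧
    ∀ lam : ℝ, 1 ≤ lam → ∀ x ∈ St ρ, (∀ i, |(θ (Y x i)).im| ≤ lam) → ∀ j,
      ‖σ j x‖ ≤ Real.exp (B * lam) ∧ ‖σ j x‖ * ‖deriv h (Y x j)‖ ≤
        Real.exp (B * lam) * (‖g (Y x j)‖ * ∑ i, ‖h (Y x i)‖)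

/-- the tangential offsets are bounded by the support numbers -/
def XB {n : ℕ} [NeZero n] (h g : ℂ → ℂ) (β : ℝ) (y : ZMod n → ℂ) : Prop :=
  ∀ j, ‖deriv h (y j)‖ ≤ Real.exp β * (‖g (y j)‖ * ∑ i, ‖h (y i)‖)

/-- row 1701: the abstract leaf with the extra field -/
def S_ALG3 : Prop := ∀ (r ρ c C : ℝ) (θ h g Q Y φ p : ℂ → ℂ) (n : ℕ) [NeZero n],
  P097K.SD r θ h g Q c C → CL r ρ c θ h g n Y φ p →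
  ∃ Y' s l τ η, AL n r ρ c θ h g Y' s l τ η ∧ AX n ρ θ h g Y'

/-- row 1702: Jensen for the sines, at the scale of the angles -/
def S_XB : Prop := ∀ (n : ℕ) [NeZero n] (r ρ : ℝ) (θ h g : ℂ → ℂ) (Y : ℂ → ZMod n → ℂ),
  Cv r ρ Y → AX n ρ θ h g Y → ∀ ε : ℝ, 0 < ε → ∃ k lam₀ : ℝ, 1 ≤ k ∧ ∀ lam ≥ lam₀,
    ∃ W, Bar (St ρ) W ∧ W 0 ≤ ε ∧ ∀ x ∈ St ρ, (∀ j, |(θ (Y x j)).im| ≤ lam) → W x < 1 →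
      UJ W x 0 ∧ XB h g (k * lam) (Y x)

/-- row 1703: the payer of the driven phase -/
def S_DPAY : Prop := ∀ (n : ℕ) [NeZero n] (r ρ : ℝ) (g : ℂ → ℂ) (Y : ℂ → ZMod n → ℂ),
  Cv r ρ Y → ∀ K lam : ℝ, 1 ≤ K → 1 ≤ lam → ∃ (Λ : Finset ℝ) (P : ℂ → ℝ), Λ.card ≤ n ∧
    (∀ L ∈ Λ, lam ≤ L) ∧ Bar (St ρ) P ∧ P 0 ≤ 4 * (n : ℝ) ^ 3 * Real.exp (-(4 * lam)) ∧
    ∀ x ∈ St ρ, UJ P x 0 ∧ ((∃ i, dd r (Y x i) < Real.exp (-(lam * (8 * K) ^ n))) →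
      DrvAt r g Y K lam Λ x →
      UJ P x (-∑ j, 2 * ‖g (Y x j) * deriv (fun x => Y x j) x‖ ^ 2))

/-- row 1704: the hot and cold forms -/
def S_HC : Prop := ∀ (n : ℕ) [NeZero n] (r ρ c C : ℝ) (θ h g Q : ℂ → ℂ) (Y : ℂ → ZMod n → ℂ),
  P097K.SD r θ h g Q c C → Cv r ρ Y → ∃ M₀ : ℝ, ∀ β M Γ : ℝ, M₀ ≤ M →
    1 + 8 * (n : ℝ) ^ 2 ≤ Real.exp β → 2 * β ≤ M → 0 ≤ Γ → ∃ F : ℂ → ℝ, Bar (St ρ) F ∧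
      F 0 ≤ 13 * M + n * (9 * β / M * Γ) ∧ ∀ x ∈ St ρ, ∑ j, ‖h (Y x j)‖ ^ 2 ≤ Real.exp (F x) ∧
        ((∀ j, |(θ (Y x j)).im| ≤ β) → XB h g β (Y x) →
          (∀ j, ‖g (Y x j)‖ < Real.exp (Γ - 2 * M)) →
          UJ F x ((8 * c ^ 2 + 4 * n) * ∑ j, ‖deriv (fun x => Y x j) x‖ ^ 2))

/-- row 1705: THE BLOCK, it replaces `Spec_WU`, `Spec_ANC`, `Spec_HB` -/
def S_OFF : Prop := ∀ (n : ℕ) [NeZero n] (r ρ c C : ℝ) (θ h g Q : ℂ → ℂ) (Y : ℂ → ZMod n → ℂ),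
  P097K.SD r θ h g Q c C → Cv r ρ Y → AX n ρ θ h g Y → PG r g → ∀ K ε : ℝ, 1 ≤ K → 0 < ε →
    ∃ δ lam₀ : ℝ, 0 < δ ∧ δ ≤ 1 ∧ ∀ lam ≥ lam₀, ∃ (Λ : Finset ℝ) (W : ℂ → ℝ), Λ.card ≤ n ∧
      (∀ L ∈ Λ, lam ≤ L) ∧ Bar (St ρ) W ∧ W 0 ≤ ε ∧ ∀ x ∈ St ρ, W x < 1 →
        (∀ j, ‖h (Y x j)‖ ≤ Real.exp lam) ∧
        ((∀ j, |(θ (Y x j)).im| ≤ δ * lam) → DrvAt r g Y K lam Λ x → UJ W x 0)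

end Vale.Agent.P097O
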