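import Vale.Agent.P097O.Defs
import Vale.Agent.P097K.Hb

/-!
# P097O: the hot and the cold form at one vertex
-/

set_option linter.all false

open Filter Topology Set Metric
open Vale.Agent.P097C Vale.Agent.P097K.Hb

namespace Vale.Agent.P097O

namespace Hc

theorem uj_log {u : ℂ → ℝ} {z : ℂ} {a : ℝ} (h : UJ u z a) (hp : ∀ᶠ x in 𝓝 z, 0 < u x) :
    UJ (fun x => Real.log (u x)) z (a / u z) := by
  obtain ⟨φ, b, h1, h2, h3⟩ := h
  have p : 0 < φ z := h3 ▸ hp.self_of_nhds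
  refine ((h1.log p.ne').uj.mono ?_).touch ?_ (by rw [h3])
  · rw [h3]
    exact sub_le_self _ (by positivity)
  · filter_upwards [h2, hp] with x e1 e2 using Real.log_le_log e2 e1

theorem cmax {S : Set ℂ} {u v : ℂ → ℝ} (hu : ContinuousOn u S) (hv : ContinuousOn v S) :
    ContinuousOn (fun x => max (u x) (v x)) S := fun y hy => Tendsto.max (hu y hy) (hv y hy)

/-- the size of the vertex: `true` is hot, `false` is cold -/
noncomputable def Ev (θ h g : ℂ → ℂ) (β M : ℝ) (b : Bool) (y : ℂ) : ℝ :=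
  if b then max (‖h y‖ ^ 2) (Real.exp (4 * β) * (‖NN θ h g Complex.I y‖ ^ 2 +
    ‖NN θ h g (-Complex.I) y‖ ^ 2) / max (‖g y‖ ^ 2) (Real.exp (-(2 * M)) ^ 2)) else ‖h y‖ ^ 2

/-- the potential which counts the swings -/
noncomputable def Pv (g : ℂ → ℂ) (Γ k : ℝ) (y : ℂ) : ℝ :=
  max (Γ - Real.log (max (‖g y‖ * Real.exp k) 1)) 0

variable {r c C β M Γ k : ℝ} {θ h g Q : ℂ → ℂ} {y : ℂ}

theorem h_le (b : Bool) (y : ℂ) : ‖h y‖ ^ 2 ≤ Ev θ h g β M b y := by
  cases b
  exacts [le_rfl, le_max_left _ _]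

theorem Ev_nn (b : Bool) (y : ℂ) : 0 ≤ Ev θ h g β M b y := (sq_nonneg _).trans (h_le b y)

theorem Ev_cont (S : P097K.SD r θ h g Q c C) (b : Bool) :
    ContinuousOn (Ev θ h g β M b) (St r) := by
  have c1 := S.anh.continuousOn.norm.pow 2
  cases b
  · exact c1
  · refine cmax c1 ((continuousOn_const.mul (((an S _).continuousOn.norm.pow 2).add
      ((an S _).continuousOn.norm.pow 2))).div
      (cmax (S.ang.continuousOn.norm.pow 2) continuousOn_const) fun y _ => ?_)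
    exact (lt_max_of_lt_right (by positivity)).ne'

theorem Pv_nn (y : ℂ) : 0 ≤ Pv g Γ k y := le_max_right _ _

theorem Pv_le (hΓ : 0 ≤ Γ) (y : ℂ) : Pv g Γ k y ≤ Γ :=
  max_le (sub_le_self _ (Real.log_nonneg (le_max_right _ _))) hΓ

theorem Pv_cont (hg : ContinuousOn g (St r)) : ContinuousOn (Pv g Γ k) (St r) :=
  cmax (continuousOn_const.sub ((cmax (hg.norm.mul continuousOn_const) continuousOn_const).log
    fun y _ => (lt_max_of_lt_right one_pos).ne')) continuousOn_const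

theorem Pv_low (hΓ : 0 ≤ Γ) (hy : ‖g y‖ ≤ Real.exp (-k)) : Pv g Γ k y = Γ := by
  have : ‖g y‖ * Real.exp k ≤ 1 := by
    have := mul_le_mul_of_nonneg_right hy (Real.exp_pos k).le
    rwa [← Real.exp_add, neg_add_cancel, Real.exp_zero] at this
  rw [Pv, max_eq_right this, Real.log_one, sub_zero, max_eq_left hΓ]

theorem Pv_ge (hy : g y ≠ 0) : Γ - k - Real.log ‖g y‖ ≤ Γ - k - Real.log ‖g y‖ ∧
    (0 ≤ Γ - k - Real.log ‖g y‖ → Pv g Γ k y ≤ Γ - k - Real.log ‖g y‖) := by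
  refine ⟨le_rfl, fun h0 => max_le ?_ h0⟩
  have p : 0 < ‖g y‖ := norm_pos_iff.2 hy
  have := Real.log_le_log (mul_pos p (Real.exp_pos k)) (le_max_left (‖g y‖ * Real.exp k) 1)
  rw [Real.log_mul p.ne' (Real.exp_pos k).ne', Real.log_exp] at this
  linarith

theorem Pv_high (hy : Real.exp (-k) ≤ ‖g y‖) : Γ - k - Real.log ‖g y‖ ≤ Pv g Γ k y := by
  have p : 0 < ‖g y‖ := (Real.exp_pos _).trans_le hy
  have : 1 ≤ ‖g y‖ * Real.exp k := by
    have := mul_le_mul_of_nonneg_right hy (Real.exp_pos k).le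
    rwa [← Real.exp_add, neg_add_cancel, Real.exp_zero] at this
  rw [Pv, max_eq_left this, Real.log_mul p.ne' (Real.exp_pos k).ne', Real.log_exp]
  exact le_max_of_le_left (by linarith)

theorem log_lt (hy : g y ≠ 0) (h2 : ‖g y‖ < Real.exp (Γ - k)) : 0 < Γ - k - Real.log ‖g y‖ :=
  sub_pos.2 ((Real.log_lt_iff_lt_exp (norm_pos_iff.2 hy)).2 h2)

theorem Pv_uj_low (hΓ : 0 ≤ Γ) (hy : ‖g y‖ ≤ Real.exp (-k)) : UJ (Pv g Γ k) y 0 :=
  (UJ.const Γ y).touch (.of_forall (Pv_le hΓ)) (Pv_low hΓ hy)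

theorem Pv_uj_high (ag : AnalyticAt ℂ g y) (hy : Real.exp (-k) ≤ ‖g y‖)
    (h2 : ‖g y‖ < Real.exp (Γ - k)) : UJ (Pv g Γ k) y 0 := by
  have g0 : g y ≠ 0 := norm_pos_iff.1 ((Real.exp_pos _).trans_le hy)
  have J := (EJ.logNorm ag g0).const_sub (Γ - k)
  refine (J.uj.mono (by simp)).touch ?_
    (le_antisymm ((Pv_ge g0).2 (log_lt g0 h2).le) (Pv_high hy))
  filter_upwards [ag.continuousAt.eventually_ne g0,
    J.continuousAt.eventually (lt_mem_nhds (log_lt g0 h2))] with w e1 e2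
  exact (Pv_ge e1).2 e2.le

theorem Ev_uj_cold (ah : AnalyticAt ℂ h y) :
    UJ (Ev θ h g β M false) y (4 * ‖deriv h y‖ ^ 2) := (EJ.normSq ah).uj

theorem h_le_z (g0 : g y ≠ 0) (hθ : |(θ y).im| ≤ 2 * β) : ‖h y‖ ^ 2 ≤ Real.exp (4 * β) *
    (‖NN θ h g Complex.I y / g y‖ ^ 2 + ‖NN θ h g (-Complex.I) y / g y‖ ^ 2) := by
  have hx : Complex.exp (-Complex.I * θ y) * Complex.exp (Complex.I * θ y) = 1 := by
    rw [← Complex.exp_add]
    simp
  have key : 2 * Complex.I * h y = NN θ h g (-Complex.I) y / g y * Complex.exp (Complex.I * θ y) -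
      NN θ h g Complex.I y / g y * Complex.exp (-Complex.I * θ y) := by
    rw [NN, NN]
    generalize Complex.exp (-Complex.I * θ y) = a at *
    generalize Complex.exp (Complex.I * θ y) = b at *
    field_simp
    linear_combination (-(2 * Complex.I * h y * g y)) * hx
  have h3 := congrArg norm key
  rw [norm_mul, norm_mul, Complex.norm_I, Complex.norm_ofNat] at h3
  have h4 := h3.le.trans ((norm_sub_le _ _).trans (add_le_add
    ((norm_mul_le _ _).trans (mul_le_mul_of_nonneg_left (nE (Or.inl rfl) hθ) (norm_nonneg _)))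
    ((norm_mul_le _ _).trans (mul_le_mul_of_nonneg_left (nE (Or.inr rfl) hθ) (norm_nonneg _)))))
  have e4 : Real.exp (4 * β) = Real.exp (2 * β) ^ 2 := by
    rw [← Real.exp_nat_mul]
    congr 1
    push_cast
    ring
  rw [e4]
  generalize ‖NN θ h g Complex.I y / g y‖ = a at *
  generalize ‖NN θ h g (-Complex.I) y / g y‖ = b at *
  generalize Real.exp (2 * β) = E at *
  have h5 := pow_le_pow_left₀ (by positivity) h4 2
  nlinarith [sq_nonneg (b * E - a * E), sq_nonneg (a * E), sq_nonneg (b * E)]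

theorem z_jet (S : P097K.SD r θ h g Q c C) (hy : y ∈ St r) {e : ℂ}
    (he : e = Complex.I ∨ e = -Complex.I) (hg : Real.exp (-(2 * M)) ≤ ‖g y‖)
    (hθ : |(θ y).im| ≤ β) : ∃ b a, EJ (fun w => ‖NN θ h g e w / g w‖ ^ 2) y b a ∧
      a ≤ 4 * (c ^ 2 * Real.exp (2 * β + 8 * M)) := by
  have p : 0 < ‖g y‖ := (Real.exp_pos _).trans_le hg
  have g0 : g y ≠ 0 := norm_pos_iff.1 p
  have e2 : e ^ 2 = -1 := by rcases he with rfl | rfl <;> simp
  refine ⟨_, _, EJ.normSq ((an S e y hy).div (S.ang y hy) g0), ?_⟩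
  have d : deriv (fun w => NN θ h g e w / g w) y = c * Complex.exp (e * θ y) / g y ^ 2 := by
    rw [← wrN S e2 hy]
    exact ((an S e y hy).differentiableAt.hasDerivAt.div
      (S.ang y hy).differentiableAt.hasDerivAt g0).deriv
  rw [d, norm_div, norm_mul, norm_pow, Complex.norm_real, Real.norm_eq_abs, abs_of_pos S.c0]
  refine mul_le_mul_of_nonneg_left ?_ (by norm_num)
  have e3 : c ^ 2 * Real.exp (2 * β + 8 * M) = (c * Real.exp β / Real.exp (-(2 * M)) ^ 2) ^ 2 := by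
    rw [div_pow, mul_pow, ← pow_mul, ← Real.exp_nat_mul, ← Real.exp_nat_mul, mul_div_assoc,
      ← Real.exp_sub]
    congr 2
    push_cast
    ring
  have c0 := S.c0
  have n1 := nE he hθ
  rw [e3]
  gcongr

theorem Ev_uj_hot (S : P097K.SD r θ h g Q c C) (hy : y ∈ St r) (β0 : 0 < β) (hM : 2 * β ≤ M)
    (hg : Real.exp (-(2 * M)) ≤ ‖g y‖) (hθ : |(θ y).im| ≤ β) :
    UJ (Ev θ h g β M true) y (8 * c ^ 2 * Real.exp (12 * M)) := by
  have p : 0 < ‖g y‖ := (Real.exp_pos _).trans_le hg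
  have g0 : g y ≠ 0 := norm_pos_iff.1 p
  obtain ⟨b1, a1, j1, k1⟩ := z_jet S hy (Or.inl rfl) hg hθ
  obtain ⟨b2, a2, j2, k2⟩ := z_jet S hy (Or.inr rfl) hg hθ
  have ez : ∀ w, Real.exp (4 * β) * (‖NN θ h g Complex.I w / g w‖ ^ 2 +
      ‖NN θ h g (-Complex.I) w / g w‖ ^ 2) = Real.exp (4 * β) * (‖NN θ h g Complex.I w‖ ^ 2 +
        ‖NN θ h g (-Complex.I) w‖ ^ 2) / ‖g w‖ ^ 2 := fun w => by
    rw [norm_div, norm_div, div_pow, div_pow, ← add_div, mul_div_assoc]
  have le : ∀ w, g w ≠ 0 → |(θ w).im| ≤ 2 * β → Ev θ h g β M true w ≤ Real.exp (4 * β) *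
      (‖NN θ h g Complex.I w / g w‖ ^ 2 + ‖NN θ h g (-Complex.I) w / g w‖ ^ 2) := fun w w0 wθ => by
    refine max_le (h_le_z w0 wθ) ?_
    rw [ez]
    exact div_le_div_of_nonneg_left (by positivity) (pow_pos (norm_pos_iff.2 w0) 2) (le_max_left _ _)
  refine (((j1.add j2).smul (Real.exp (4 * β))).uj.mono ?_).touch ?_
    (le_antisymm (le y g0 (by linarith)) ?_)
  · have e1 : Real.exp (4 * β) * Real.exp (2 * β + 8 * M) ≤ Real.exp (12 * M) := by
      rw [← Real.exp_add, Real.exp_le_exp]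
      linarith
    have e2 := mul_le_mul_of_nonneg_left (add_le_add k1 k2) (Real.exp_pos (4 * β)).le
    nlinarith [mul_le_mul_of_nonneg_left e1 (sq_nonneg c)]
  · have ct : ContinuousAt (fun w => |(θ w).im|) y :=
      (Complex.continuous_im.continuousAt.comp (S.anθ y hy).continuousAt).abs
    filter_upwards [(S.ang y hy).continuousAt.eventually_ne g0,
      ct.eventually (gt_mem_nhds (show |(θ y).im| < 2 * β by linarith))] with w e1 e2
    exact le w e1 e2.le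
  · rw [ez]
    refine le_max_of_le_right (le_of_eq ?_)
    rw [max_eq_left (pow_le_pow_left₀ (Real.exp_pos _).le hg 2)]

theorem Ev_le {H : ℝ} (β0 : 0 ≤ β) (h1 : ‖h y‖ ≤ H) (h2 : ‖deriv h y‖ ≤ Real.exp β * (‖g y‖ * H))
    (hθ : |(θ y).im| ≤ β) : Ev θ h g β M true y ≤ 8 * Real.exp (8 * β) * H ^ 2 := by
  have H0 : 0 ≤ H := (norm_nonneg _).trans h1
  have E1 : 1 ≤ Real.exp β := Real.one_le_exp β0
  have bN : ∀ e : ℂ, e = Complex.I ∨ e = -Complex.I →
      ‖NN θ h g e y‖ ≤ 2 * Real.exp β ^ 2 * H * ‖g y‖ := fun e he => by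
    have ne : ‖e‖ = 1 := by rcases he with rfl | rfl <;> simp
    have a1 : ‖e * h y * g y‖ ≤ Real.exp β * (‖g y‖ * H) := by
      rw [norm_mul, norm_mul, ne, one_mul, mul_comm]
      exact (mul_le_mul_of_nonneg_left h1 (norm_nonneg _)).trans
        (le_mul_of_one_le_left (by positivity) E1)
    rw [NN, norm_mul]
    refine (mul_le_mul ((norm_sub_le _ _).trans (add_le_add h2 a1)) (nE he hθ) (norm_nonneg _)
      (by positivity)).trans_eq (by ring)
  have e4 : Real.exp (4 * β) = Real.exp β ^ 4 := by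
    rw [← Real.exp_nat_mul]
    norm_num
  have e8 : Real.exp (8 * β) = Real.exp β ^ 8 := by
    rw [← Real.exp_nat_mul]
    norm_num
  refine max_le ((pow_le_pow_left₀ (norm_nonneg _) h1 2).trans
    (le_mul_of_one_le_left (sq_nonneg _) ?_)) ?_
  · linarith [Real.one_le_exp (show 0 ≤ 8 * β by linarith)]
  · rw [div_le_iff₀ (lt_max_of_lt_right (by positivity)), e4, e8]
    have a1 := pow_le_pow_left₀ (norm_nonneg _) (bN _ (Or.inl rfl)) 2
    have a2 := pow_le_pow_left₀ (norm_nonneg _) (bN _ (Or.inr rfl)) 2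
    refine (mul_le_mul_of_nonneg_left (add_le_add a1 a2) (by positivity)).trans
      (le_trans (le_of_eq ?_) (mul_le_mul_of_nonneg_left (le_max_left _ _) (by positivity)))
    ring

end Hc

end Vale.Agent.P097O
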